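import Vale.Agent.P100.Biharm.Regular
import Vale.Agent.P100.Planes.Main

/-!
P100, one exponent equal to one: the Euler field commutes with the radial operators, so the system
`-Δu = |x|^A v`, `-Δv = |x|^B u^q` has a second component adapted to the inversion.
-/

open Filter Topology Set Metric

namespace Vale.Agent.P100.Biharm

open Vale.Agent.P100.Sys Vale.Agent.P100.Cmp Vale.Agent.P100.Wt Vale.Agent.P100.Planes
open Vale.Agent.P100.Sector (Sol)

variable {n : ℕ} {A B q g h : ℝ} {u v f : EuclideanSpace ℝ (Fin n) → ℝ}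
  {x : EuclideanSpace ℝ (Fin n)}

/-- The exponents adapted to the inversion, when `p = 1`. -/
structure Data (n : ℕ) (A B q g h : ℝ) (u v : EuclideanSpace ℝ (Fin n) → ℝ) : Prop where
  hn : 3 ≤ n
  hA : -2 < A
  hB : -2 < B
  hq : 1 < q
  sol : Sol n A B 1 q u v
  g_eq : 2 * g = (n : ℝ) - 4 - A
  h_eq : 2 * h = (n : ℝ) + A
  g_pos : 0 < g
  tau : 0 < 2 + B + h - q * g

theorem punct_mem (hx : x ≠ 0) : ({0}ᶜ : Set (EuclideanSpace ℝ (Fin n))) ∈ 𝓝 x :=
  isOpen_compl_singleton.mem_nhds hx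

theorem contDiffOn_eul (h3 : ∀ i, ContDiffOn ℝ 2 (pd i f) {0}ᶜ) : ContDiffOn ℝ 2 (eul f) {0}ᶜ :=
  ContDiffOn.sum fun i _ => (EuclideanSpace.proj (𝕜 := ℝ) i).contDiff.contDiffOn.mul (h3 i)

/-- A partial derivative of the Euler field. -/
theorem pd_eul (hf : ContDiffOn ℝ 2 f {0}ᶜ) (hx : x ≠ 0) (i : Fin n) :
    pd i (eul f) x = pd i f x + eul (pd i f) x := by
  have hd : ∀ j, DifferentiableAt ℝ (pd j f) x := fun j =>
    differentiableAt_pd (hf.contDiffAt (punct_mem hx)) j
  have hp : ∀ j : Fin n, DifferentiableAt ℝ (fun y : EuclideanSpace ℝ (Fin n) => y j) x := fun j =>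
    (EuclideanSpace.proj (𝕜 := ℝ) j).differentiableAt
  have hc : ∀ j : Fin n, pd i (fun y : EuclideanSpace ℝ (Fin n) => y j) x = if i = j then 1 else 0 :=
    fun j => by
      show fderiv ℝ (EuclideanSpace.proj (𝕜 := ℝ) j) x _ = _
      rw [ContinuousLinearMap.fderiv]
      simp [eq_comm]
  show pd i (fun y => ∑ j, y j * pd j f y) x = _
  rw [pd_sum Finset.univ (A := fun j y => y j * pd j f y) fun j _ => (hp j).mul (hd j)]
  calc ∑ j, pd i (fun y => y j * pd j f y) x
      = ∑ j, ((if i = j then pd j f x else 0) + x j * pd j (pd i f) x) :=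
        Finset.sum_congr rfl fun j _ => by
          rw [pd_mul (hp j) (hd j), hc, pd_symm isOpen_compl_singleton hf hx i j]
          split_ifs <;> ring
    _ = _ := by rw [Finset.sum_add_distrib, Finset.sum_ite_eq, if_pos (Finset.mem_univ i), eul]

theorem eul_sum {ι : Type} (s : Finset ι) (F : ι → EuclideanSpace ℝ (Fin n) → ℝ)
    (hF : ∀ i ∈ s, DifferentiableAt ℝ (F i) x) :
    eul (fun y => ∑ i ∈ s, F i y) x = ∑ i ∈ s, eul (F i) x := by
  simp only [eul]
  rw [Finset.sum_comm]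
  refine Finset.sum_congr rfl fun j _ => ?_
  rw [pd_sum s (A := F) hF, Finset.mul_sum]

/-- The Laplacian of the Euler field. -/
theorem lap_eul (hf : ContDiffOn ℝ 2 f {0}ᶜ) (h3 : ∀ i, ContDiffOn ℝ 2 (pd i f) {0}ᶜ)
    (hx : x ≠ 0) : lap (eul f) x = 2 * lap f x + eul (lap f) x := by
  have he : eul (lap f) x = ∑ i, eul (pd i (pd i f)) x := eul_sum Finset.univ _ fun i _ =>
    differentiableAt_pd ((h3 i).contDiffAt (punct_mem hx)) i
  rw [he]
  simp only [lap, Finset.mul_sum, ← Finset.sum_add_distrib]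
  refine Finset.sum_congr rfl fun i _ => ?_
  have hev : pd i (eul f) =ᶠ[𝓝 x] fun y => pd i f y + eul (pd i f) y :=
    eventually_of_mem (punct_mem hx) fun y hy => pd_eul hf hy i
  have d1 : DifferentiableAt ℝ (pd i f) x := differentiableAt_pd (hf.contDiffAt (punct_mem hx)) i
  have d2 : DifferentiableAt ℝ (eul (pd i f)) x := DifferentiableAt.fun_sum fun j _ =>
    (EuclideanSpace.proj (𝕜 := ℝ) j).differentiableAt.mul
      (differentiableAt_pd ((h3 i).contDiffAt (punct_mem hx)) j)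
  rw [pd_congr hev, pd_add d1 d2, pd_eul (h3 i) hx]
  ring

/-- The Euler field commutes with the radial operators. -/
theorem eul_opr (hf : ContDiffOn ℝ 2 f {0}ᶜ) (h3 : ∀ i, ContDiffOn ℝ 2 (pd i f) {0}ᶜ) (hx : x ≠ 0)
    (γ : ℝ) : eul (opr γ f) x = opr γ (eul f) x := by
  have hL : DifferentiableAt ℝ (lap f) x := DifferentiableAt.fun_sum fun i _ =>
    differentiableAt_pd ((h3 i).contDiffAt (punct_mem hx)) i
  have hS : DifferentiableAt ℝ (fun y : EuclideanSpace ℝ (Fin n) => ‖y‖ ^ 2) x :=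
    (contDiff_norm_sq ℝ (n := 1)).differentiable (by norm_num) x
  have hE : DifferentiableAt ℝ (eul f) x :=
    ((contDiffOn_eul h3).contDiffAt (punct_mem hx)).differentiableAt (by norm_num)
  have hF : DifferentiableAt ℝ f x := (hf.contDiffAt (punct_mem hx)).differentiableAt (by norm_num)
  have e : ∀ i, x i * pd i (opr γ f) x =
      -(2 * (x i * x i) * lap f x) - ‖x‖ ^ 2 * (x i * pd i (lap f) x) +
        2 * γ * (x i * pd i (eul f) x) + γ * ((n : ℝ) - 2 - γ) * (x i * pd i f x) := fun i => by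
    show x i * pd i (fun y => -(‖y‖ ^ 2 * lap f y) + 2 * γ * eul f y +
      γ * ((n : ℝ) - 2 - γ) * f y) x = _
    rw [pd_add ((hS.fun_mul hL).fun_neg.fun_add (hE.const_mul _)) (hF.const_mul _),
      pd_add (hS.fun_mul hL).fun_neg (hE.const_mul _), pd_const_mul hE, pd_const_mul hF,
      show pd i (fun y => -(‖y‖ ^ 2 * lap f y)) x = -pd i (fun y => ‖y‖ ^ 2 * lap f y) x by
        simp [pd, fderiv_fun_neg],
      pd_mul hS hL, pd_norm_sq]
    ring
  have hn2 : ∑ i, x i * x i = ‖x‖ ^ 2 := by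
    rw [EuclideanSpace.norm_sq_eq]; simp [pow_two]
  show (∑ i, x i * pd i (opr γ f) x) = _
  simp only [e, Finset.sum_add_distrib, Finset.sum_sub_distrib, Finset.sum_neg_distrib,
    ← Finset.mul_sum, ← Finset.sum_mul, hn2]
  rw [opr, lap_eul hf h3 hx]
  simp only [eul]
  ring

theorem opr_change (g h : ℝ) (hgh : g + h = (n : ℝ) - 2) (f : EuclideanSpace ℝ (Fin n) → ℝ)
    (x : EuclideanSpace ℝ (Fin n)) : opr h f x = opr g f x + 2 * (h - g) * eul f x := by
  have e : (n : ℝ) = g + h + 2 := by linarith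
  simp only [opr, e]
  ring

theorem Data.sum_eq (D : Data n A B q g h u v) : g + h = (n : ℝ) - 2 := by
  linarith [D.g_eq, D.h_eq]

theorem Data.diff_eq (D : Data n A B q g h u v) : h - g = 2 + A := by linarith [D.g_eq, D.h_eq]

theorem Data.h_pos (D : Data n A B q g h u v) : 0 < h := by
  linarith [D.diff_eq, D.g_pos, D.hA]

theorem Data.contDiffOn_pd_u (D : Data n A B q g h u v) (i : Fin n) :
    ContDiffOn ℝ 2 (pd i u) {0}ᶜ := by
  refine contDiffOn_pd_of_lap D.hn isOpen_compl_singleton D.sol.smoothu ?_ i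
  refine ((contDiffOn_rw' A).mul D.sol.smoothv).neg.congr fun y hy => ?_
  rw [D.sol.equ y hy, rw'_eq, Real.rpow_one]

theorem Data.contDiffOn_pd_wgt (D : Data n A B q g h u v) (i : Fin n) :
    ContDiffOn ℝ 2 (pd i (wgt g u)) {0}ᶜ := by
  refine ((((contDiffOn_const (c := g)).mul (contDiffOn_rw' g)).mul (contDiffOn_zc i)).mul
    D.sol.smoothu |>.add ((contDiffOn_rw' g).mul (D.contDiffOn_pd_u i))).congr fun y hy => ?_
  show pd i (fun z => rw' g z * u z) y = _
  rw [pd_mul (((contDiffOn_rw' (k := 1) g).contDiffAt (punct_mem hy)).differentiableAt (by norm_num))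
    ((D.sol.smoothu.contDiffAt (punct_mem hy)).differentiableAt (by norm_num)), pd_rw' g hy]
  ring

theorem contDiffOn_wgt (hu : ContDiffOn ℝ 2 u {0}ᶜ) (g : ℝ) : ContDiffOn ℝ 2 (wgt g u) {0}ᶜ :=
  fun _ hy => (contDiffAt_wgt hu hy g).contDiffWithinAt

theorem Data.opr_u (D : Data n A B q g h u v) (hx : x ≠ 0) : opr g (wgt g u) x = wgt h v x := by
  rw [opr_wgt D.sol hx g h, show 2 + A + g - 1 * h = 0 by linarith [D.diff_eq], Real.rpow_zero,
    one_mul, Real.rpow_one]

theorem Data.opr_v (D : Data n A B q g h u v) (hx : x ≠ 0) :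
    opr h (wgt h v) x = ‖x‖ ^ (2 + B + h - q * g) * wgt g u x ^ q :=
  opr_wgt D.sol.swap hx h g

/-- The second component adapted to the inversion. -/
noncomputable def adj (g h : ℝ) (u v : EuclideanSpace ℝ (Fin n) → ℝ)
    (x : EuclideanSpace ℝ (Fin n)) : ℝ :=
  wgt h v x + 2 * (h - g) * eul (wgt g u) x

theorem Data.contDiffOn_adj (D : Data n A B q g h u v) : ContDiffOn ℝ 2 (adj g h u v) {0}ᶜ :=
  (contDiffOn_wgt D.sol.smoothv h).add
    (contDiffOn_const.mul (contDiffOn_eul D.contDiffOn_pd_wgt))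

theorem Data.opr_adj_eq (D : Data n A B q g h u v) (hx : x ≠ 0) :
    opr h (wgt g u) x = adj g h u v x := by
  rw [opr_change g h D.sum_eq, D.opr_u hx, adj]

theorem Data.opr_adj (D : Data n A B q g h u v) (hx : x ≠ 0) :
    opr g (adj g h u v) x = ‖x‖ ^ (2 + B + h - q * g) * wgt g u x ^ q := by
  have hE := (contDiffOn_eul D.contDiffOn_pd_wgt).contDiffAt (punct_mem hx)
  have e : opr g (adj g h u v) x =
      opr g (wgt h v) x + 2 * (h - g) * opr g (eul (wgt g u)) x := by
    have := opr_sub (contDiffAt_wgt D.sol.smoothv hx h) hE g (-(2 * (h - g)))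
    simp only [neg_mul, sub_neg_eq_add] at this
    exact this
  have ec : eul (opr g (wgt g u)) x = eul (wgt h v) x := by
    simp only [eul]
    refine Finset.sum_congr rfl fun i _ => ?_
    rw [pd_congr (eventually_of_mem (punct_mem hx) fun y hy => D.opr_u hy) i]
  rw [e, ← eul_opr (contDiffOn_wgt D.sol.smoothu g) D.contDiffOn_pd_wgt hx, ec,
    ← opr_change g h D.sum_eq, D.opr_v hx]

end Vale.Agent.P100.Biharm
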