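import Vale.Agent.P100.Biharm.Move

/-!
P100: no positive entire solution of the weighted system when one exponent equals one, for every
subcritical pair of weights (in particular for the biharmonic Hénon equation).
-/

open Filter Topology Set Metric
open scoped Laplacian

namespace Vale.Agent.P100.Biharm

open Vale.Agent.P100.Sys Vale.Agent.P100.Cmp Vale.Agent.P100.Wt Vale.Agent.P100.Planes
open Vale.Agent.P100.Sector (Sol)

variable {n : ℕ} {A B p q g h : ℝ} {u v : EuclideanSpace ℝ (Fin n) → ℝ}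

/-- The data near the origin. -/
theorem Data.exists_start (D : Data n A B q g h u v) :
    ∃ r₀, 0 < r₀ ∧
      (∀ y : EuclideanSpace ℝ (Fin n), y ≠ 0 → ‖y‖ ≤ r₀ → 0 ≤ eul (wgt g u) y) ∧
      ∀ y : EuclideanSpace ℝ (Fin n), y ≠ 0 → ‖y‖ ≤ r₀ →
        max 1 q * ‖y‖ ^ (2 + B + h - q * g) * wgt g u y ^ (q - 1) < (g * h) ^ 2 := by
  have hu0 : 0 < g * u 0 := mul_pos D.g_pos (D.sol.posu 0)
  have t1 : Tendsto (fun x => eul u x + g * u x) (𝓝[≠] (0 : EuclideanSpace ℝ (Fin n)))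
      (𝓝 (g * u 0)) := by
    have hc : Tendsto (fun x => g * u x) (𝓝[≠] (0 : EuclideanSpace ℝ (Fin n))) (𝓝 (g * u 0)) :=
      ((continuous_const.mul D.sol.contu).tendsto' 0 _ rfl).mono_left nhdsWithin_le_nhds
    have := (tendsto_eul D.hn D.hA zero_le_one D.sol.contu D.sol.contv D.sol.posv D.sol.smoothu
      D.sol.equ).add hc
    simpa using this
  have t2 : Tendsto (fun x : EuclideanSpace ℝ (Fin n) =>
      max 1 q * ‖x‖ ^ (2 + B + h - q * g) * (‖x‖ ^ g * u x) ^ (q - 1)) (𝓝 0) (𝓝 0) := by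
    refine ((continuous_const.mul (continuous_norm.rpow_const fun _ => Or.inr D.tau.le)).mul
      (((continuous_norm.rpow_const fun _ => Or.inr D.g_pos.le).mul D.sol.contu).rpow_const
        fun _ => Or.inr (by linarith [D.hq]))).tendsto' 0 0 ?_
    simp [Real.zero_rpow D.tau.ne']
  obtain ⟨δ, hδ, hb⟩ := Metric.eventually_nhds_iff.1
    ((eventually_nhdsWithin_iff.1 (t1.eventually_const_lt hu0)).and
      (t2.eventually_lt_const (pow_pos (mul_pos D.g_pos D.h_pos) 2)))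
  have hd : ∀ x : EuclideanSpace ℝ (Fin n), ‖x‖ ≤ δ / 2 → dist x 0 < δ := fun x hx => by
    rw [dist_zero_right]
    linarith
  refine ⟨δ / 2, by linarith, fun y hy hyr => ?_, fun y hy hyr => ?_⟩
  · rw [eul_wgt D.sol.smoothu hy]
    exact mul_nonneg (rw'_pos g hy).le ((hb (hd y hyr)).1 hy).le
  · rw [wgt, rw'_eq]
    exact (hb (hd y hyr)).2

/-- The data admit no solution. -/
theorem Data.false (D : Data n A B q g h u v) : False := by
  obtain ⟨r₀, hr₀, hmono, hsmall⟩ := D.exists_start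
  have heul : ∀ y : EuclideanSpace ℝ (Fin n), y ≠ 0 → 0 ≤ eul (wgt g u) y := fun y hy =>
    eul_nonneg_of_good D.sol.smoothu
      (fun ν h1 _ z hz hzν => (D.fine_all hr₀ hmono hsmall h1 z hz hzν).1) hy le_rfl
  obtain ⟨y₀, hy₀, hmin⟩ := (isCompact_sphere (0 : EuclideanSpace ℝ (Fin n)) 1).exists_isMinOn
    ⟨EuclideanSpace.single ⟨0, (by omega : 0 < 3).trans_le D.hn⟩ 1, by simp⟩
    D.sol.contu.continuousOn
  refine not_growth D.hn D.hA D.hB one_pos (by linarith [D.hq]) (by linarith [D.hq]) D.sol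
    (D.sol.posu y₀) (g := g) ?_ fun x hx => ?_
  · linarith [D.tau, D.g_eq, D.h_eq]
  have hx0 : 0 < ‖x‖ := by linarith
  set y : EuclideanSpace ℝ (Fin n) := ‖x‖⁻¹ • x with hy
  have hy1 : ‖y‖ = 1 := by
    rw [hy, norm_smul, norm_inv, norm_norm, inv_mul_cancel₀ hx0.ne']
  have hm : u y₀ ≤ u y := hmin (mem_sphere_zero_iff_norm.2 hy1)
  have hxy : ‖x‖ • y = x := by rw [hy, smul_smul, mul_inv_cancel₀ hx0.ne', one_smul]
  have hle := le_of_eul (f := wgt g u) (contDiffOn_wgt D.sol.smoothu g)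
    (norm_pos_iff.1 (hy1 ▸ one_pos)) hx fun z hz _ =>
      heul z (norm_pos_iff.1 (one_pos.trans_le (hy1 ▸ hz)))
  rw [hxy, wgt, wgt, rw'_eq, rw'_eq, hy1, Real.one_rpow, one_mul] at hle
  rw [Real.rpow_neg hx0.le, ← div_eq_mul_inv, div_le_iff₀ (Real.rpow_pos_of_pos hx0 _)]
  linarith

/-- No solution when `p = 1`, in the whole subcritical range. -/
theorem not_sol_p_one (hn : 3 ≤ n) (hA : -2 < A) (hB : -2 < B) (hq : 0 < q)
    (hsub : (n : ℝ) - 2 < ((n : ℝ) + A) / 2 + ((n : ℝ) + B) / (q + 1)) :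
    ¬ Sol n A B 1 q u v := by
  intro S
  have hn3 : (3 : ℝ) ≤ n := by exact_mod_cast hn
  rcases le_or_gt q 1 with hq1 | hq1
  · exact Sector.not_sol_of_le_one hn hA hB one_pos hq (by linarith) S
  rcases le_or_gt ((n : ℝ) - 4 - A) 0 with hg | hg
  · refine not_sol_of_large hn hB hA hq one_pos (by linarith) ?_ S.swap
    have := mul_le_mul_of_nonneg_right (show (n : ℝ) - 2 ≤ 2 + A by linarith)
      (show 0 ≤ q - 1 by linarith)
    linarith
  have ht : 0 < 2 + B + ((n : ℝ) + A) / 2 - q * (((n : ℝ) - 4 - A) / 2) := by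
    have : ((n : ℝ) - 4 - A) / 2 * (q + 1) < (n : ℝ) + B := by
      rw [← lt_div_iff₀ (by linarith)]
      linarith
    linarith
  exact Data.false (g := ((n : ℝ) - 4 - A) / 2) (h := ((n : ℝ) + A) / 2)
    ⟨hn, hA, hB, hq1, S, by ring, by ring, by linarith, ht⟩

/-- No positive entire solution when one of the exponents equals one. -/
theorem no_solution_one (hn : 3 ≤ n) (hA : -2 < A) (hB : -2 < B) (hp : 0 < p) (hq : 0 < q)
    (hsub : (n : ℝ) - 2 < ((n : ℝ) + A) / (p + 1) + ((n : ℝ) + B) / (q + 1))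
    (h1 : p = 1 ∨ q = 1) :
    ¬ ∃ u v : EuclideanSpace ℝ (Fin n) → ℝ, Continuous u ∧ Continuous v ∧
      (∀ x, 0 < u x ∧ 0 < v x) ∧
      ∀ x ≠ 0, ContDiffAt ℝ 2 u x ∧ ContDiffAt ℝ 2 v x ∧
        -Δ u x = ‖x‖ ^ A * v x ^ p ∧ -Δ v x = ‖x‖ ^ B * u x ^ q := by
  rintro ⟨u, v, hu, hv, hpos, h⟩
  have hs : Sol n A B p q u v := ⟨hu, hv, fun x => (hpos x).1, fun x => (hpos x).2,
    fun x hx => (h x (by simpa using hx)).1.contDiffWithinAt,
    fun x hx => (h x (by simpa using hx)).2.1.contDiffWithinAt,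
    fun x hx => by rw [← laplacian_eq_lap (h x hx).1, ← (h x hx).2.2.1, neg_neg],
    fun x hx => by rw [← laplacian_eq_lap (h x hx).2.1, ← (h x hx).2.2.2, neg_neg]⟩
  rcases h1 with rfl | rfl
  · exact not_sol_p_one hn hA hB hq (by rwa [one_add_one_eq_two] at hsub) hs
  · exact not_sol_p_one hn hB hA hp (by rw [one_add_one_eq_two] at hsub; linarith) hs.swap

end Vale.Agent.P100.Biharm
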