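import Vale.Agent.P100.Biharm.Nonneg

/-!
P100, one exponent equal to one: the spheres move from radius zero to infinity. The difference of
`|x|^g u` with its reflection is coupled to the difference of `|x|^h v` with the reflected adapted
component by two second order inequalities.
-/

open Filter Topology Set Metric

namespace Vale.Agent.P100.Biharm

open Vale.Agent.P100.Sys Vale.Agent.P100.Cmp Vale.Agent.P100.Wt Vale.Agent.P100.Planes
open Vale.Agent.P100.Sector (Sol)

variable {n : ℕ} {A B q g h l : ℝ} {u v : EuclideanSpace ℝ (Fin n) → ℝ}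
  {x : EuclideanSpace ℝ (Fin n)}

/-- The reflected adapted component minus `|x|^h v`. -/
noncomputable def zgap (l g h : ℝ) (u v : EuclideanSpace ℝ (Fin n) → ℝ)
    (x : EuclideanSpace ℝ (Fin n)) : ℝ :=
  adj g h u v (refl l x) - wgt h v x

/-- Both differences are nonnegative inside the sphere of radius `l`. -/
def Fine (g h : ℝ) (u v : EuclideanSpace ℝ (Fin n) → ℝ) (l : ℝ) : Prop :=
  ∀ x : EuclideanSpace ℝ (Fin n), x ≠ 0 → ‖x‖ ≤ l → 0 ≤ gap l g u x ∧ 0 ≤ zgap l g h u v x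

theorem Data.contDiffAt_zgap (D : Data n A B q g h u v) (hl : l ≠ 0) (hx : x ≠ 0) :
    ContDiffAt ℝ 2 (zgap l g h u v) x :=
  ((D.contDiffOn_adj.contDiffAt (punct_mem (refl_ne hl hx))).comp x (contDiffAt_refl hx)).sub
    (contDiffAt_wgt D.sol.smoothv hx h)

theorem Data.continuousAt_zgap₂ (D : Data n A B q g h u v) (hl : l ≠ 0) (hx : x ≠ 0) :
    ContinuousAt (fun z : ℝ × EuclideanSpace ℝ (Fin n) => zgap z.1 g h u v z.2) (l, x) := by
  have hr : ContinuousAt (fun z : ℝ × EuclideanSpace ℝ (Fin n) => refl z.1 z.2) (l, x) :=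
    ((continuousAt_fst.pow 2).mul ((continuousAt_snd.norm.pow 2).inv₀ (norm_sq_ne hx))).smul
      continuousAt_snd
  exact (ContinuousAt.comp_of_eq
      (D.contDiffOn_adj.contDiffAt (punct_mem (refl_ne hl hx))).continuousAt hr rfl).sub
    (ContinuousAt.comp_of_eq (continuousAt_wgt D.sol.smoothv hx) continuousAt_snd rfl)

theorem Data.opr_gap_eq (D : Data n A B q g h u v) (hl : l ≠ 0) (hx : x ≠ 0) :
    opr g (gap l g u) x = zgap l g h u v x := by
  have hT := refl_ne hl hx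
  have e := opr_sub (f := fun y => wgt g u (refl l y)) (g := wgt g u)
    ((contDiffAt_wgt D.sol.smoothu hT g).comp x (contDiffAt_refl hx))
    (contDiffAt_wgt D.sol.smoothu hx g) g 1
  simp only [one_mul] at e
  show opr g (fun y => wgt g u (refl l y) - wgt g u y) x = _
  have e2 := opr_comp_refl (l := l) hl hx (contDiffAt_wgt D.sol.smoothu hT g) h
  rw [show (n : ℝ) - 2 - h = g by linarith [D.sum_eq]] at e2
  rw [e, e2, D.opr_adj_eq hT, D.opr_u hx, zgap]

theorem Data.opr_zgap (D : Data n A B q g h u v) (hl : l ≠ 0) (hx : x ≠ 0) :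
    opr h (zgap l g h u v) x =
      ‖refl l x‖ ^ (2 + B + h - q * g) * wgt g u (refl l x) ^ q -
        ‖x‖ ^ (2 + B + h - q * g) * wgt g u x ^ q := by
  have hT := refl_ne hl hx
  have hadj := D.contDiffOn_adj.contDiffAt (punct_mem hT)
  have e := opr_sub (f := fun y => adj g h u v (refl l y)) (g := wgt h v)
    (hadj.comp x (contDiffAt_refl hx)) (contDiffAt_wgt D.sol.smoothv hx h) h 1
  simp only [one_mul] at e
  show opr h (fun y => adj g h u v (refl l y) - wgt h v y) x = _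
  have e2 := opr_comp_refl (l := l) hl hx hadj g
  rw [show (n : ℝ) - 2 - g = h by linarith [D.sum_eq]] at e2
  rw [e, e2, D.opr_adj hT, D.opr_v hx]

theorem zgap_self (hx : x ≠ 0) :
    zgap ‖x‖ g h u v x = 2 * (h - g) * eul (wgt g u) x := by
  rw [zgap, refl_self hx, adj, add_sub_cancel_left]

theorem Data.min_const_eq (D : Data n A B q g h u v) :
    g * ((n : ℝ) - 2 - g) = g * h ∧ h * ((n : ℝ) - 2 - h) = g * h := by
  constructor
  · rw [show (n : ℝ) - 2 - g = h by linarith [D.sum_eq]]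
  · rw [show (n : ℝ) - 2 - h = g by linarith [D.sum_eq], mul_comm]

theorem Data.gap_low (D : Data n A B q g h u v) :
    ∀ ε > 0, ∀ᶠ y in 𝓝[≠] (0 : EuclideanSpace ℝ (Fin n)), -ε < gap l g u y := fun ε hε => by
  have := low_near_zero (l := l) D.sol.contu D.sol.posu (s := 0) (g := g)
    (by linarith [D.g_pos]) ε hε
  filter_upwards [this, self_mem_nhdsWithin] with y hy _
  rwa [rw'_eq, Real.rpow_zero, one_mul] at hy

theorem Data.zgap_low (D : Data n A B q g h u v) (hl : l ≠ 0) :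
    ∀ ε > 0, ∀ᶠ y in 𝓝[≠] (0 : EuclideanSpace ℝ (Fin n)), -ε < zgap l g h u v y := fun ε hε => by
  have ht : Tendsto (fun y : EuclideanSpace ℝ (Fin n) => ‖y‖ ^ h * v y) (𝓝 0) (𝓝 0) := by
    refine ((continuous_norm.rpow_const fun _ => Or.inr D.h_pos.le).mul D.sol.contv).tendsto' 0 0 ?_
    simp [Real.zero_rpow D.h_pos.ne']
  filter_upwards [nhdsWithin_le_nhds (ht.eventually_lt_const hε), self_mem_nhdsWithin] with y hy hy0
  have hy0' : y ≠ 0 := hy0
  have := D.adj_nonneg (refl_ne hl hy0')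
  rw [zgap, wgt, rw'_eq]
  linarith

/-- The ball: when the second difference is nonnegative outside the small ball, both are everywhere
inside. -/
theorem Data.fine_of_annulus (D : Data n A B q g h u v) {r : ℝ} (hl : 0 < l) (hrl : r ≤ l)
    (hsmall : ∀ y : EuclideanSpace ℝ (Fin n), y ≠ 0 → ‖y‖ ≤ r →
      max 1 q * ‖y‖ ^ (2 + B + h - q * g) * wgt g u y ^ (q - 1) < (g * h) ^ 2)
    (hz : ∀ y : EuclideanSpace ℝ (Fin n), y ≠ 0 → r ≤ ‖y‖ → ‖y‖ ≤ l → 0 ≤ zgap l g h u v y) :
    Fine g h u v l := by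
  have hc : 0 < g * h := mul_pos D.g_pos D.h_pos
  obtain ⟨eg, eh⟩ := D.min_const_eq
  have cW : ∀ y : EuclideanSpace ℝ (Fin n), y ≠ 0 → ‖y‖ ≤ l → ContinuousAt (gap l g u) y :=
    fun y hy _ => (contDiffAt_gap D.sol.smoothu hl.ne' hy g).continuousAt
  have bW : ∀ y : EuclideanSpace ℝ (Fin n), ‖y‖ = l → 0 ≤ gap l g u y := fun y hy => by
    subst hy
    rw [gap_self (norm_pos_iff.1 hl)]
  -- at a negative minimum of the first difference, the second is negative
  have key1 : ∀ x₁ : EuclideanSpace ℝ (Fin n), x₁ ≠ 0 → IsLocalMin (gap l g u) x₁ →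
      zgap l g h u v x₁ ≤ g * h * gap l g u x₁ := fun x₁ h1 hm => by
    have := opr_le_of_min (contDiffAt_gap D.sol.smoothu hl.ne' h1 g) hm g
    rwa [D.opr_gap_eq hl.ne' h1, eg] at this
  -- at a negative minimum of the second difference, the first is negative
  have key2 : ∀ y₀ : EuclideanSpace ℝ (Fin n), y₀ ≠ 0 → ‖y₀‖ ≤ l → zgap l g h u v y₀ < 0 →
      ∃ x₂, x₂ ≠ 0 ∧ ‖x₂‖ ≤ l ∧ zgap l g h u v x₂ ≤ zgap l g h u v y₀ ∧ gap l g u x₂ < 0 ∧
        g * h * -zgap l g h u v x₂ ≤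
          max 1 q * ‖x₂‖ ^ (2 + B + h - q * g) * wgt g u x₂ ^ (q - 1) * -gap l g u x₂ ∧
        ‖x₂‖ < r := fun y₀ hy₀ hy₀l hneg => by
    have hb : ∀ y : EuclideanSpace ℝ (Fin n), ‖y‖ = l → 0 ≤ zgap l g h u v y := fun y hy =>
      hz y (norm_pos_iff.1 (hy ▸ hl)) (hrl.trans hy.ge) hy.le
    obtain ⟨x₂, h2, h2l, h2neg, h2m, h2all⟩ := exists_neg_min (f := zgap l g h u v)
      (fun y hy _ => (D.contDiffAt_zgap hl.ne' hy).continuousAt) hb (D.zgap_low hl.ne')
      hy₀ hy₀l hneg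
    have h2r : ‖x₂‖ < r := lt_of_not_ge fun hr => absurd (hz x₂ h2 hr h2l) (not_le.2 h2neg)
    have e := opr_le_of_min (D.contDiffAt_zgap hl.ne' h2) h2m h
    rw [D.opr_zgap hl.ne' h2, eh] at e
    have hX := wgt_pos D.sol.posu h2 g
    have hX' := wgt_pos D.sol.posu (refl_ne hl.ne' h2) g
    have e1 := mul_le_mul_of_nonneg_right
      (Real.rpow_le_rpow (norm_nonneg x₂) (le_norm_refl h2 h2l) D.tau.le)
      (Real.rpow_nonneg hX'.le q)
    have e2 := mul_le_mul_of_nonneg_left (rpow_diff hX hX' (by linarith [D.hq] : 0 < q))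
      (Real.rpow_nonneg (norm_nonneg x₂) (2 + B + h - q * g))
    have hneg2 : g * h * zgap l g h u v x₂ < 0 := mul_neg_of_pos_of_neg hc h2neg
    have hw : gap l g u x₂ < 0 := by
      by_contra hw
      rw [gap, not_lt] at hw
      rw [max_eq_left (show wgt g u x₂ - wgt g u (refl l x₂) ≤ 0 by linarith), mul_zero, mul_zero]
        at e2
      linarith
    refine ⟨x₂, h2, h2l, h2all y₀ hy₀ hy₀l, hw, ?_, h2r⟩
    rw [gap] at hw ⊢
    rw [max_eq_right (show 0 ≤ wgt g u x₂ - wgt g u (refl l x₂) by linarith)] at e2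
    linarith
  intro x hx hxl
  have hw : ∀ y : EuclideanSpace ℝ (Fin n), y ≠ 0 → ‖y‖ ≤ l → 0 ≤ gap l g u y := by
    intro y hy hyl
    by_contra hneg
    rw [not_le] at hneg
    obtain ⟨x₁, h1, h1l, h1neg, h1m, h1all⟩ := exists_neg_min (f := gap l g u) cW bW D.gap_low
      hy hyl hneg
    have e1 := key1 x₁ h1 h1m
    obtain ⟨x₂, h2, h2l, hle, hw2, e2, h2r⟩ :=
      key2 x₁ h1 h1l (e1.trans_lt (mul_neg_of_pos_of_neg hc h1neg))
    have hs := hsmall x₂ h2 h2r.le
    have hE : 0 ≤ max 1 q * ‖x₂‖ ^ (2 + B + h - q * g) * wgt g u x₂ ^ (q - 1) :=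
      mul_nonneg (mul_nonneg (le_max_of_le_left zero_le_one) (Real.rpow_nonneg (norm_nonneg _) _))
        (Real.rpow_nonneg (wgt_pos D.sol.posu h2 g).le _)
    have a1 := mul_le_mul_of_nonneg_left (neg_le_neg (h1all x₂ h2 h2l)) hE
    have a2 : g * h * (g * h * -gap l g u x₁) ≤ g * h * -zgap l g h u v x₂ :=
      mul_le_mul_of_nonneg_left (by linarith) hc.le
    have a3 := mul_lt_mul_of_pos_right hs (neg_pos.2 h1neg)
    linarith
  refine ⟨hw x hx hxl, ?_⟩
  by_contra hneg
  obtain ⟨x₂, h2, h2l, -, hw2, -, -⟩ := key2 x hx hxl (not_le.1 hneg)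
  exact absurd (hw x₂ h2 h2l) (not_le.2 hw2)

/-- The second difference is positive inside a fine sphere. -/
theorem Data.zgap_pos (D : Data n A B q g h u v) (hl : 0 < l) (hf : Fine g h u v l) (hx : x ≠ 0)
    (hxl : ‖x‖ < l) : 0 < zgap l g h u v x := by
  refine lt_of_le_of_ne (hf x hx hxl.le).2 fun h0 => ?_
  have hmin : IsLocalMin (zgap l g h u v) x := by
    filter_upwards [punct_mem hx, (isOpen_lt continuous_norm continuous_const).mem_nhds hxl]
      with y hy hy'
    rw [← h0]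
    exact (hf y hy hy'.le).2
  have e := opr_le_of_min (D.contDiffAt_zgap hl.ne' hx) hmin h
  rw [D.opr_zgap hl.ne' hx, ← h0, mul_zero] at e
  have hlt : ‖x‖ < ‖refl l x‖ := by
    rw [norm_refl, lt_div_iff₀ (norm_pos_iff.2 hx), ← pow_two]
    exact pow_lt_pow_left₀ hxl (norm_nonneg x) two_ne_zero
  have hX := wgt_pos D.sol.posu hx g
  have := mul_lt_mul (Real.rpow_lt_rpow (norm_nonneg x) hlt D.tau)
    (Real.rpow_le_rpow hX.le (sub_nonneg.1 (hf x hx hxl.le).1) (by linarith [D.hq] : 0 ≤ q))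
    (Real.rpow_pos_of_pos hX q) (Real.rpow_nonneg (norm_nonneg _) _)
  linarith

/-- The first difference is positive inside a fine sphere. -/
theorem Data.gap_pos (D : Data n A B q g h u v) (hl : 0 < l) (hf : Fine g h u v l) (hx : x ≠ 0)
    (hxl : ‖x‖ < l) : 0 < gap l g u x := by
  refine lt_of_le_of_ne (hf x hx hxl.le).1 fun h0 => ?_
  have hmin : IsLocalMin (gap l g u) x := by
    filter_upwards [punct_mem hx, (isOpen_lt continuous_norm continuous_const).mem_nhds hxl]
      with y hy hy'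
    rw [← h0]
    exact (hf y hy hy'.le).1
  have e := opr_le_of_min (contDiffAt_gap D.sol.smoothu hl.ne' hx g) hmin g
  rw [D.opr_gap_eq hl.ne' hx, ← h0, mul_zero] at e
  linarith [D.zgap_pos hl hf hx hxl]

/-- The boundary point lemma on an annulus. -/
theorem hopf_sphere {f : EuclideanSpace ℝ (Fin n) → ℝ} {γ L : ℝ} (hn : 3 ≤ n) (hγ : 0 < γ)
    (hγ' : γ < (n : ℝ) - 2) (hL : 0 < L)
    (hf : ∀ y : EuclideanSpace ℝ (Fin n), y ≠ 0 → ContDiffAt ℝ 2 f y)
    (h0 : ∀ y : EuclideanSpace ℝ (Fin n), y ≠ 0 → ‖y‖ ≤ L → 0 ≤ f y)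
    (hpos : ∀ y : EuclideanSpace ℝ (Fin n), ‖y‖ = L / 2 → 0 < f y)
    (hop : ∀ y : EuclideanSpace ℝ (Fin n), y ≠ 0 → ‖y‖ ≤ L → 0 ≤ opr γ f y)
    (hxL : ‖x‖ = L) (hfx : f x = 0) : eul f x < 0 := by
  have hn3 : (3 : ℝ) ≤ n := by exact_mod_cast hn
  have hx : x ≠ 0 := norm_pos_iff.1 (hxL ▸ hL)
  set K : Set (EuclideanSpace ℝ (Fin n)) := closedBall 0 L \ ball 0 (L / 2) with hK
  have hmemK : ∀ y, y ∈ K ↔ L / 2 ≤ ‖y‖ ∧ ‖y‖ ≤ L := fun y => by simp [hK, and_comm]
  have hne : ∀ y ∈ K, y ≠ 0 := fun y hy => norm_pos_iff.1 (by linarith [((hmemK y).1 hy).1])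
  have hsph : (sphere (0 : EuclideanSpace ℝ (Fin n)) (L / 2)).Nonempty :=
    ⟨(1 / 2 : ℝ) • x, by simp [norm_smul, hxL]; ring⟩
  obtain ⟨xm, hxm, hxm'⟩ := (isCompact_sphere _ _).exists_isMinOn hsph fun y hy =>
    (hf y (ne_zero_of_mem_sphere (by linarith) ⟨y, hy⟩)).continuousAt.continuousWithinAt
  have hm : 0 < f xm := hpos xm (by simpa using hxm)
  set C : ℝ := (L / 2) ^ (-(n : ℝ)) - L ^ (-(n : ℝ)) with hC
  have hC0 : 0 < C := sub_pos.2 (Real.rpow_lt_rpow_of_neg (by linarith) (by linarith) (by linarith))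
  set κ : ℝ := f xm / C with hκ
  have hκ0 : 0 < κ := div_pos hm hC0
  set φ : EuclideanSpace ℝ (Fin n) → ℝ := fun y => rw' (-(n : ℝ)) y - L ^ (-(n : ℝ)) with hφ
  have hφd : ∀ y : EuclideanSpace ℝ (Fin n), y ≠ 0 → ContDiffAt ℝ 2 φ y := fun y hy =>
    ((contDiffOn_rw' _).contDiffAt (punct_mem hy)).sub contDiffAt_const
  set ψ : EuclideanSpace ℝ (Fin n) → ℝ := fun y => f y - κ * φ y with hψ
  have hψd : ∀ y : EuclideanSpace ℝ (Fin n), y ≠ 0 → ContDiffAt ℝ 2 ψ y := fun y hy =>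
    (hf y hy).sub (contDiffAt_const.mul (hφd y hy))
  have hψpos : ∀ y ∈ K, 0 ≤ ψ y := by
    obtain ⟨y, hy, hmin⟩ := ((isCompact_closedBall (0 : EuclideanSpace ℝ (Fin n)) L).diff
      isOpen_ball).exists_isMinOn ⟨x, (hmemK x).2 ⟨by linarith, hxL.le⟩⟩
      fun y hy => (hψd y (hne y hy)).continuousAt.continuousWithinAt
    refine fun z hz => le_trans ?_ (hmin hz)
    by_contra hneg
    rw [not_le] at hneg
    obtain ⟨h1, h2⟩ := (hmemK y).1 hy
    rcases eq_or_lt_of_le h1 with h1 | h1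
    · have : f xm ≤ f y := hxm' (mem_sphere_zero_iff_norm.2 h1.symm)
      have e : κ * φ y = f xm := by
        rw [hφ, hκ]; simp only [rw'_eq, ← h1]; rw [← hC, div_mul_cancel₀ _ hC0.ne']
      simp only [hψ, e] at hneg
      linarith
    rcases eq_or_lt_of_le h2 with h2 | h2
    · have e : φ y = 0 := by simp [hφ, rw'_eq, h2]
      rw [hψ] at hneg
      simp only [e, mul_zero, sub_zero] at hneg
      linarith [h0 y (hne y hy) h2.le]
    have hy0 := hne y hy
    have hloc : IsLocalMin ψ y := hmin.isLocalMin (mem_of_superset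
      (((isOpen_lt continuous_const continuous_norm).inter
        (isOpen_lt continuous_norm continuous_const)).mem_nhds
          (show y ∈ {z | L / 2 < ‖z‖} ∩ {z | ‖z‖ < L} from ⟨h1, h2⟩))
      fun z hz => (hmemK z).2 ⟨le_of_lt hz.1, le_of_lt hz.2⟩)
    have e1 := opr_le_of_min (hψd y hy0) hloc γ
    have hrc : ContDiffAt ℝ 2 (rw' (-(n : ℝ))) y :=
      (contDiffOn_rw' _).contDiffAt (punct_mem hy0)
    have eφ : opr γ φ y < 0 := by
      have e := opr_sub (g := fun _ : EuclideanSpace ℝ (Fin n) => (1 : ℝ)) hrc contDiffAt_const γ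
        (L ^ (-(n : ℝ)))
      have e' := opr_rw'_mul (g := fun _ : EuclideanSpace ℝ (Fin n) => (1 : ℝ)) hy0 contDiffAt_const
        γ (-(n : ℝ))
      simp only [mul_one] at e e'
      have ep : ∀ i : Fin n, pd i (fun _ : EuclideanSpace ℝ (Fin n) => (1 : ℝ)) = fun _ => 0 :=
        fun i => funext fun z => by simp [pd]
      have ec : eul (fun _ : EuclideanSpace ℝ (Fin n) => (1 : ℝ)) y = 0 := by simp [eul, ep]
      have el : lap (fun _ : EuclideanSpace ℝ (Fin n) => (1 : ℝ)) y = 0 :=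
        Finset.sum_eq_zero fun i _ => by rw [ep]; simp [pd]
      have e1' : opr γ (fun _ : EuclideanSpace ℝ (Fin n) => (1 : ℝ)) y = γ * ((n : ℝ) - 2 - γ) := by
        simp [opr, ec, el]
      rw [ec, el, mul_zero, mul_zero, add_zero, sub_zero] at e'
      rw [e1', e'] at e
      show opr γ (fun z => rw' (-(n : ℝ)) z - L ^ (-(n : ℝ))) y < 0
      rw [e]
      have k1 : (γ - -(n : ℝ)) * ((n : ℝ) - 2 - γ + -(n : ℝ)) < 0 :=
        mul_neg_of_pos_of_neg (by linarith) (by linarith)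
      have k2 : 0 ≤ L ^ (-(n : ℝ)) * (γ * ((n : ℝ) - 2 - γ)) := mul_nonneg
        (Real.rpow_nonneg hL.le _) (mul_nonneg hγ.le (by linarith))
      have k3 := mul_neg_of_pos_of_neg (rw'_pos (-(n : ℝ)) hy0) k1
      linarith
    have e2 : 0 ≤ opr γ f y := hop y hy0 h2.le
    have e3 := opr_sub (hf y hy0) (hφd y hy0) γ κ
    change opr γ ψ y = _ at e3
    have := mul_neg_of_pos_of_neg hκ0 eφ
    have : γ * ((n : ℝ) - 2 - γ) * ψ y < 0 := mul_neg_of_pos_of_neg
      (mul_pos hγ (by linarith)) hneg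
    linarith
  have hd : HasDerivAt (fun t : ℝ => ψ (t • x)) (eul ψ x) 1 := by
    simpa using hasDerivAt_ray (f := ψ) (x := x) one_ne_zero
      ((hψd _ (by simpa using hx)).differentiableAt (by norm_num))
  have hψ1 : ψ x = 0 := by simp [hψ, hφ, rw'_eq, hxL, hfx]
  have hle : eul ψ x ≤ 0 := by
    refine le_of_tendsto
      (hasDerivAt_iff_tendsto_slope.1 hd |>.mono_left (nhdsWithin_mono (1 : ℝ) (fun t (ht : t ∈ Iio (1 : ℝ)) => ne_of_lt (mem_Iio.1 ht)))) ?_
    filter_upwards [Ioo_mem_nhdsLT (show (1 / 2 : ℝ) < 1 by norm_num)] with t ht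
    have := hψpos (t • x) ((hmemK _).2 (by
      rw [norm_smul, Real.norm_eq_abs, abs_of_pos (by linarith [ht.1]), hxL]
      constructor <;> nlinarith [ht.1, ht.2]))
    rw [slope_def_field, one_smul, hψ1, sub_zero]
    exact div_nonpos_of_nonneg_of_nonpos this (by linarith [ht.2])
  have hφe : eul φ x = -(n : ℝ) * L ^ (-(n : ℝ)) := by
    have hz : ∑ i, x i * zc i x = 1 := by
      have : ∑ i, x i * x i = ‖x‖ ^ 2 := by rw [EuclideanSpace.norm_sq_eq]; simp [pow_two]
      calc ∑ i, x i * zc i x = (∑ i, x i * x i) * (‖x‖ ^ 2)⁻¹ := by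
            rw [Finset.sum_mul]; exact Finset.sum_congr rfl fun i _ => by simp only [zc]; ring
        _ = 1 := by rw [this, mul_inv_cancel₀ (norm_sq_ne hx)]
    calc eul φ x = ∑ i, (-(n : ℝ) * rw' (-(n : ℝ)) x) * (x i * zc i x) :=
          Finset.sum_congr rfl fun i _ => by
            show x i * pd i (fun y => rw' (-(n : ℝ)) y - L ^ (-(n : ℝ))) x = _
            rw [pd_sub (((contDiffOn_rw' (k := 1) _).contDiffAt
              (punct_mem hx)).differentiableAt (by norm_num))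
              (differentiableAt_const _), pd_rw' _ hx,
              show pd i (fun _ : EuclideanSpace ℝ (Fin n) => L ^ (-(n : ℝ))) x = 0 by simp [pd]]
            ring
      _ = _ := by rw [← Finset.mul_sum, hz, rw'_eq, hxL, mul_one]
  have hψe : eul ψ x = eul f x - κ * eul φ x := by
    have df : DifferentiableAt ℝ φ x := (hφd x hx).differentiableAt (by norm_num)
    simp only [eul, Finset.mul_sum, ← Finset.sum_sub_distrib]
    exact Finset.sum_congr rfl fun i _ => by
      show x i * pd i (fun y => f y - κ * φ y) x = _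
      rw [pd_sub ((hf x hx).differentiableAt (by norm_num)) (df.const_mul κ), pd_const_mul df]
      ring
  rw [hψe, hφe] at hle
  have := mul_pos hκ0 (mul_pos (show (0 : ℝ) < n by linarith) (Real.rpow_pos_of_pos hL (-(n : ℝ))))
  linarith

/-- Strict monotonicity on a fine sphere. -/
theorem Data.eul_pos (D : Data n A B q g h u v) {L : ℝ} (hL : 0 < L) (hf : Fine g h u v L)
    (hxL : ‖x‖ = L) : 0 < eul (wgt g u) x := by
  have hx : x ≠ 0 := norm_pos_iff.1 (hxL ▸ hL)
  have hg : gap L g u x = 0 := by subst hxL; exact gap_self hx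
  have h1 := hopf_sphere D.hn D.g_pos (by linarith [D.sum_eq, D.h_pos]) hL
    (fun y hy => contDiffAt_gap D.sol.smoothu hL.ne' hy g) (fun y hy hyL => (hf y hy hyL).1)
    (fun y hy => D.gap_pos hL hf (norm_pos_iff.1 (by rw [hy]; linarith)) (by rw [hy]; linarith))
    (fun y hy hyL => by rw [D.opr_gap_eq hL.ne' hy]; exact (hf y hy hyL).2) hxL hg
  have hTx : refl L x = x := hxL ▸ refl_self hx
  have d1 : DifferentiableAt ℝ (wgt g u) x :=
    (contDiffAt_wgt D.sol.smoothu hx g).differentiableAt (by norm_num)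
  have hc : DifferentiableAt ℝ (fun y => wgt g u (refl L y)) x := by
    refine DifferentiableAt.comp (g := wgt g u) x ?_ (differentiableAt_refl hx)
    rwa [hTx]
  have e := eul_comp_refl (f := wgt g u) hx
    (by rwa [hTx] : DifferentiableAt ℝ (wgt g u) (refl L x))
  rw [hTx] at e
  have e2 : eul (gap L g u) x = -2 * eul (wgt g u) x := by
    calc eul (gap L g u) x = eul (fun y => wgt g u (refl L y)) x - eul (wgt g u) x := by
          simp only [eul, ← Finset.sum_sub_distrib]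
          exact Finset.sum_congr rfl fun i _ => by
            show x i * pd i (fun y => wgt g u (refl L y) - wgt g u y) x = _
            rw [pd_sub hc d1]; ring
      _ = _ := by rw [e]; ring
  linarith

/-- Every radius is fine. -/
theorem Data.fine_all (D : Data n A B q g h u v) {r₀ : ℝ} (hr₀ : 0 < r₀)
    (hmono : ∀ y : EuclideanSpace ℝ (Fin n), y ≠ 0 → ‖y‖ ≤ r₀ → 0 ≤ eul (wgt g u) y)
    (hsmall : ∀ y : EuclideanSpace ℝ (Fin n), y ≠ 0 → ‖y‖ ≤ r₀ →
      max 1 q * ‖y‖ ^ (2 + B + h - q * g) * wgt g u y ^ (q - 1) < (g * h) ^ 2)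
    (hl : 0 < l) : Fine g h u v l := by
  have hm : 0 < h - g := by linarith [D.diff_eq, D.hA]
  set T : Set ℝ := {L | ∀ ν, 0 < ν → ν ≤ L → Fine g h u v ν} with hT
  have h0 : r₀ ∈ T := fun ν h1 h2 => D.fine_of_annulus h1 le_rfl
    (fun y hy hyν => hsmall y hy (hyν.trans h2)) fun y hy hy1 hy2 => by
      obtain rfl : ‖y‖ = ν := le_antisymm hy2 hy1
      rw [zgap_self hy]
      exact mul_nonneg (by linarith) (hmono y hy h2)
  by_contra hbad
  have hbdd : BddAbove T := ⟨l, fun L hL => not_lt.1 fun h => hbad (hL l hl h.le)⟩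
  set L : ℝ := sSup T with hLdef
  have hL0 : r₀ ≤ L := le_csSup hbdd h0
  have hLp : 0 < L := hr₀.trans_le hL0
  have below : ∀ ν, 0 < ν → ν < L → Fine g h u v ν := fun ν h1 h2 => by
    obtain ⟨L', hL', h3⟩ := exists_lt_of_lt_csSup ⟨r₀, h0⟩ h2
    exact hL' ν h1 h3.le
  have hgood : ∀ ν, 0 < ν → ν ≤ L → Good g u ν := by
    intro ν h1 h2 y hy hyν
    rcases lt_or_eq_of_le h2 with h2 | rfl
    · exact (below ν h1 h2 y hy hyν).1
    rcases lt_or_eq_of_le hyν with h3 | h3
    · have hc : ContinuousAt (fun ν : ℝ => gap ν g u y) L :=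
        ContinuousAt.comp_of_eq (f := fun ν : ℝ => (ν, y))
          (continuousAt_gap₂ D.sol.smoothu hLp.ne' hy) (continuousAt_id.prodMk continuousAt_const) rfl
      refine ge_of_tendsto (hc.tendsto.mono_left (nhdsWithin_le_nhds (s := Iio L))) ?_
      filter_upwards [Ioo_mem_nhdsLT h3] with ν hν
      exact (below ν ((norm_pos_iff.2 hy).trans hν.1) hν.2 y hy hν.1.le).1
    · rw [← h3, gap_self hy]
  have hfL : Fine g h u v L := fun y hy hyL => by
    refine ⟨hgood L hLp le_rfl y hy hyL, ?_⟩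
    rcases lt_or_eq_of_le hyL with h3 | h3
    · have hc : ContinuousAt (fun ν : ℝ => zgap ν g h u v y) L :=
        ContinuousAt.comp_of_eq (f := fun ν : ℝ => (ν, y))
          (D.continuousAt_zgap₂ hLp.ne' hy) (continuousAt_id.prodMk continuousAt_const) rfl
      refine ge_of_tendsto (hc.tendsto.mono_left (nhdsWithin_le_nhds (s := Iio L))) ?_
      filter_upwards [Ioo_mem_nhdsLT h3] with ν hν
      exact (below ν ((norm_pos_iff.2 hy).trans hν.1) hν.2 y hy hν.1.le).2
    · rw [← h3, zgap_self hy]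
      exact mul_nonneg (by linarith) (eul_nonneg_of_good D.sol.smoothu hgood hy hyL)
  set K : Set (EuclideanSpace ℝ (Fin n)) := closedBall 0 L \ ball 0 (r₀ / 2) with hK
  have hKne : ∀ y ∈ K, y ≠ 0 ∧ ‖y‖ ≤ L := fun y hy => by
    refine ⟨fun e => hy.2 (by rw [e]; exact mem_ball_self (by linarith)), by simpa using hy.1⟩
  have hpos : ∀ y ∈ K, 0 < zgap L g h u v y := fun y hy => by
    obtain ⟨hy0, hyL⟩ := hKne y hy
    rcases lt_or_eq_of_le hyL with h3 | h3
    · exact D.zgap_pos hLp hfL hy0 h3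
    · rw [← h3, zgap_self hy0]
      exact mul_pos (by linarith) (D.eul_pos hLp hfL h3)
  have hev : ∀ᶠ ν in 𝓝 L, ∀ y ∈ K, 0 < zgap ν g h u v ((ν / L) • y) := by
    refine ((isCompact_closedBall 0 L).diff isOpen_ball).eventually_forall_of_forall_eventually
      fun y hy => ?_
    have hc : ContinuousAt
        (fun z : ℝ × EuclideanSpace ℝ (Fin n) => zgap z.1 g h u v ((z.1 / L) • z.2)) (L, y) :=
      ContinuousAt.comp_of_eq
        (f := fun z : ℝ × EuclideanSpace ℝ (Fin n) => (z.1, (z.1 / L) • z.2))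
        (D.continuousAt_zgap₂ hLp.ne' (hKne y hy).1)
        (continuousAt_fst.prodMk ((continuousAt_fst.div_const L).smul continuousAt_snd))
        (by simp [div_self hLp.ne'])
    refine hc.tendsto.eventually_const_lt ?_
    simpa [div_self hLp.ne'] using hpos y hy
  obtain ⟨ε, hε, hball⟩ := Metric.eventually_nhds_iff.1
    (hev.and (eventually_lt_nhds (show L < 2 * L by linarith)))
  have hTnew : L + ε / 2 ∈ T := by
    intro ν h1 h2
    rcases le_or_gt ν L with h3 | h3
    · rcases lt_or_eq_of_le h3 with h3 | rfl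
      · exact below ν h1 h3
      · exact hfL
    obtain ⟨hp', h2L⟩ := hball (show dist ν L < ε by
      rw [Real.dist_eq, abs_of_pos (by linarith)]; linarith)
    refine D.fine_of_annulus h1 (hL0.trans h3.le) hsmall fun y hy hy1 hy2 => ?_
    have hLν : 0 < L / ν := div_pos hLp h1
    have hn' : ‖(L / ν) • y‖ = L / ν * ‖y‖ := by
      rw [norm_smul, Real.norm_eq_abs, abs_of_pos hLν]
    have hmem : (L / ν) • y ∈ K := by
      constructor
      · rw [mem_closedBall_zero_iff, hn']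
        exact (mul_le_mul_of_nonneg_left hy2 hLν.le).trans (div_mul_cancel₀ L h1.ne').le
      · rw [mem_ball_zero_iff, not_lt, hn']
        have : 1 / 2 ≤ L / ν := by rw [le_div_iff₀ h1]; linarith
        linarith [mul_le_mul this hy1 hr₀.le hLν.le]
    have := hp' _ hmem
    rw [smul_smul, show ν / L * (L / ν) = 1 by field_simp, one_smul] at this
    exact this.le
  linarith [le_csSup hbdd hTnew]

end Vale.Agent.P100.Biharm
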