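import Vale.Agent.P100.Biharm.Comm

/-!
P100, one exponent equal to one: the second component adapted to the inversion is nonnegative. It is
a power of `|x|` times a superharmonic function which is continuous at the origin and tends to zero
on average at infinity.
-/

open MeasureTheory Filter Topology Set Metric

namespace Vale.Agent.P100.Biharm

open Vale.Agent.P100.Sys Vale.Agent.P100.Cmp Vale.Agent.P100.Wt Vale.Agent.P100.Planes
open Vale.Agent.P100.Sector (Sol ker contDiff_ker ker_le abs_pd_ker_le abs_pd_pd_ker_le shell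
  mem_shell isCompact_shell kerMass kerMass_pos tendsto_lap_ker exists_universal pd_comp_smul)

variable {n : ℕ} {A B q g h : ℝ} {u v : EuclideanSpace ℝ (Fin n) → ℝ}
  {x : EuclideanSpace ℝ (Fin n)}

/-- The superharmonic function behind the second component. -/
noncomputable def prim (g h : ℝ) (u v : EuclideanSpace ℝ (Fin n) → ℝ)
    (x : EuclideanSpace ℝ (Fin n)) : ℝ :=
  ‖x‖ ^ (h - g) * v x + 2 * (h - g) * (g * u x + eul u x)

theorem Data.adj_eq (D : Data n A B q g h u v) (hx : x ≠ 0) :
    adj g h u v x = rw' g x * prim g h u v x := by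
  rw [adj, eul_wgt D.sol.smoothu hx, prim, wgt, ← rw'_eq,
    show rw' h x = rw' g x * rw' (h - g) x by rw [rw'_mul _ _ hx, add_sub_cancel]]
  ring

theorem Data.continuous_prim (D : Data n A B q g h u v) : Continuous (prim g h u v) := by
  have hm : 0 < h - g := by linarith [D.diff_eq, D.hA]
  have he : Continuous (eul u) := continuous_iff_continuousAt.2 fun y => by
    by_cases hy : y = 0
    · subst hy
      rw [← continuousWithinAt_compl_self]
      have h0 : eul u (0 : EuclideanSpace ℝ (Fin n)) = 0 := by simp [eul]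
      rw [ContinuousWithinAt, h0]
      exact tendsto_eul D.hn D.hA zero_le_one D.sol.contu D.sol.contv D.sol.posv D.sol.smoothu
        D.sol.equ
    · exact (continuousOn_eul D.sol.smoothu).continuousAt (punct_mem hy)
  exact ((continuous_norm.rpow_const fun _ => Or.inr hm.le).mul D.sol.contv).add
    (continuous_const.mul ((continuous_const.mul D.sol.contu).add he))

theorem Data.contDiffOn_prim (D : Data n A B q g h u v) :
    ContDiffOn ℝ 2 (prim g h u v) {0}ᶜ := by
  refine (((contDiffOn_rw' (h - g)).mul D.sol.smoothv).add ((contDiffOn_const (c := 2 * (h - g))).mul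
    (((contDiffOn_const (c := g)).mul D.sol.smoothu).add
      (Biharm.contDiffOn_eul D.contDiffOn_pd_u)))).congr fun y _ => ?_
  rw [prim, rw'_eq]

theorem Data.lap_prim (D : Data n A B q g h u v) (hx : x ≠ 0) : lap (prim g h u v) x ≤ 0 := by
  have hP := D.contDiffOn_prim.contDiffAt (punct_mem hx)
  have hev : adj g h u v =ᶠ[𝓝 x] fun y => rw' g y * prim g h u v y :=
    eventually_of_mem (punct_mem hx) fun y hy => D.adj_eq hy
  have e : opr g (adj g h u v) x = opr g (fun y => rw' g y * prim g h u v y) x := by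
    simp only [opr, eul]
    rw [Doubling.lap_congr hev, hev.self_of_nhds,
      Finset.sum_congr rfl fun i _ => by rw [pd_congr hev i]]
  rw [D.opr_adj hx, opr_rw'_mul hx hP] at e
  have h1 : 0 ≤ ‖x‖ ^ (2 + B + h - q * g) * wgt g u x ^ q :=
    mul_nonneg (Real.rpow_nonneg (norm_nonneg _) _)
      (Real.rpow_nonneg (wgt_pos D.sol.posu hx g).le _)
  have h2 : 0 ≤ rw' g x * ‖x‖ ^ 2 := mul_nonneg (rw'_pos g hx).le (sq_nonneg _)
  have h3 : 0 < rw' g x * ‖x‖ ^ 2 := mul_pos (rw'_pos g hx) (pow_pos (norm_pos_iff.2 hx) 2)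
  refine nonpos_of_mul_nonpos_right ?_ h3
  rw [e] at h1
  simp only [sub_self, zero_mul, mul_zero, add_zero, zero_sub] at h1
  linarith

/-- The cutoff terms of the kernel. -/
noncomputable def edge (e : ℝ) (x y : EuclideanSpace ℝ (Fin n)) : ℝ :=
  2 * (∑ i, pd i (cut n 1) y * pd i (ker e x) y) + lap (cut n 1) y * ker e x y

theorem contDiff_cut_three : ContDiff ℝ 3 (cut n 1) :=
  (bump n).contDiff.comp (contDiff_const_smul _)

theorem contDiff_edge {e : ℝ} (he : 0 < e) (x : EuclideanSpace ℝ (Fin n)) :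
    ContDiff ℝ 1 (edge (n := n) e x) := by
  have hc : ∀ i, ContDiff ℝ 2 (pd i (cut n 1)) := fun i =>
    (contDiff_cut_three.fderiv_right (m := 2) (by norm_num)).clm_apply contDiff_const
  have hl : ContDiff ℝ 1 (lap (cut n 1)) := ContDiff.sum fun i _ => contDiff_pd (hc i) i
  exact (contDiff_const.mul (ContDiff.sum fun i _ => ((hc i).of_le (by norm_num)).mul
    (contDiff_pd (contDiff_ker he x) i))).add (hl.mul (contDiff_ker he x))

theorem cut_derivs_zero {y : EuclideanSpace ℝ (Fin n)} (hy : ‖y‖ < 1 ∨ 2 < ‖y‖) :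
    (∀ i, pd i (cut n 1) y = 0) ∧ lap (cut n 1) y = 0 ∧ (∀ i j, pd j (pd i (cut n 1)) y = 0) ∧
      ∀ j, pd j (lap (cut n 1)) y = 0 := by
  have hev : ∀ᶠ z in 𝓝 y, ‖z‖ < 1 ∨ 2 * 1 < ‖z‖ := by
    rcases hy with hy | hy
    · exact ((continuous_norm.tendsto y).eventually (eventually_lt_nhds hy)).mono fun z hz => Or.inl hz
    · exact ((continuous_norm.tendsto y).eventually (eventually_gt_nhds hy)).mono
        fun z hz => Or.inr (by linarith)
  have h := hev.mono fun z hz => pd_cut_eq_zero (n := n) one_pos hz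
  refine ⟨h.self_of_nhds.1, h.self_of_nhds.2, fun i j => ?_, fun j => ?_⟩
  · rw [pd_congr (h.mono fun z hz => hz.1 i) j]; simp [pd]
  · rw [pd_congr (h.mono fun z hz => hz.2) j]; simp [pd]

/-- The cutoff terms are bounded with their gradients and supported in an annulus. -/
theorem exists_edge_bound (hn : 3 ≤ n) :
    ∃ K : ℝ, 0 ≤ K ∧ ∀ e : ℝ, 0 < e → ∀ x : EuclideanSpace ℝ (Fin n), ‖x‖ ≤ 1 / 2 → ∀ y j,
      |edge e x y| ≤ K ∧ |pd j (edge e x) y| ≤ K ∧
        (‖y‖ < 1 ∨ 2 < ‖y‖ → edge e x y = 0 ∧ pd j (edge e x) y = 0) := by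
  have hn3 : (3 : ℝ) ≤ n := by exact_mod_cast hn
  have hc : ∀ i, ContDiff ℝ 2 (pd i (cut n 1)) := fun i =>
    (contDiff_cut_three.fderiv_right (m := 2) (by norm_num)).clm_apply contDiff_const
  have hl : ContDiff ℝ 1 (lap (cut n 1)) := ContDiff.sum fun i _ => contDiff_pd (hc i) i
  obtain ⟨M, hM⟩ := (isCompact_closedBall (0 : EuclideanSpace ℝ (Fin n)) 2).exists_bound_of_continuousOn
    (f := fun y => (∑ i, |pd i (cut n 1) y|) + (∑ i, ∑ j, |pd j (pd i (cut n 1)) y|) +
      |lap (cut n 1) y| + ∑ j, |pd j (lap (cut n 1)) y|) (by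
    refine (((continuous_finsetSum _ fun i _ => (hc i).continuous.abs).add
      (continuous_finsetSum _ fun i _ => continuous_finsetSum _ fun j _ =>
        (contDiff_pd (hc i) j).continuous.abs)).add hl.continuous.abs).add
      (continuous_finsetSum _ fun j _ => ((hl.continuous_fderiv (by norm_num)).clm_apply
        continuous_const).abs) |>.continuousOn)
  set P : ℝ := ((n : ℝ) + 1) * ((n : ℝ) + 1) * 2 ^ n with hP
  have hP0 : 0 ≤ P := by positivity
  set M' : ℝ := |M| with hM'
  have hM0 : 0 ≤ M' := abs_nonneg M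
  refine ⟨4 * (M' * P), by positivity, fun e he x hx y j => ?_⟩
  have hzero : ‖y‖ < 1 ∨ 2 < ‖y‖ → edge e x y = 0 ∧ pd j (edge e x) y = 0 := by
    intro hy
    obtain ⟨z1, z2, -, -⟩ := cut_derivs_zero (n := n) hy
    refine ⟨by simp [edge, z1, z2], ?_⟩
    have hev : edge (n := n) e x =ᶠ[𝓝 y] fun _ => 0 := by
      have ho : ∀ᶠ z in 𝓝 y, ‖z‖ < 1 ∨ 2 < ‖z‖ := by
        rcases hy with hy | hy
        · exact ((continuous_norm.tendsto y).eventually (eventually_lt_nhds hy)).mono
            fun z hz => Or.inl hz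
        · exact ((continuous_norm.tendsto y).eventually (eventually_gt_nhds hy)).mono
            fun z hz => Or.inr hz
      exact ho.mono fun z hz => by
        obtain ⟨w1, w2, -, -⟩ := cut_derivs_zero (n := n) hz
        simp [edge, w1, w2]
    rw [pd_congr hev j]
    simp [pd]
  by_cases hy : ‖y‖ < 1 ∨ 2 < ‖y‖
  · obtain ⟨a, b⟩ := hzero hy
    refine ⟨?_, ?_, hzero⟩
    · rw [a, abs_zero]; positivity
    · rw [b, abs_zero]; positivity
  rw [not_or, not_lt, not_lt] at hy
  have hd : 1 / 2 ≤ ‖y - x‖ := by linarith [norm_sub_norm_le y x]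
  have hne : y ≠ x := fun h => by rw [h, sub_self, norm_zero] at hd; linarith
  have hpow : ∀ s : ℝ, 0 ≤ s → s ≤ n → ‖y - x‖ ^ (-s) ≤ (2 : ℝ) ^ n := fun s hs hsn => by
    refine (Real.rpow_le_rpow_of_nonpos (by norm_num) hd (neg_nonpos.2 hs)).trans ?_
    rw [one_div, Real.inv_rpow (by norm_num), Real.rpow_neg (by norm_num), inv_inv]
    calc (2 : ℝ) ^ s ≤ (2 : ℝ) ^ (n : ℝ) := Real.rpow_le_rpow_of_exponent_le one_le_two hsn
      _ = _ := Real.rpow_natCast 2 n
  have h2n : (0 : ℝ) ≤ 2 ^ n := by positivity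
  have k0 : |ker e x y| ≤ P := by
    obtain ⟨a, b⟩ := ker_le hn he hne
    rw [abs_of_nonneg a]
    refine b.trans ((hpow _ (by linarith) (by linarith)).trans ?_)
    exact le_mul_of_one_le_left h2n (by nlinarith)
  have k1 : ∀ i, |pd i (ker e x) y| ≤ P := fun i =>
    (abs_pd_ker_le hn he hne i).trans (mul_le_mul (by nlinarith) (hpow _ (by linarith) (by linarith))
      (Real.rpow_nonneg (norm_nonneg _) _) (by positivity))
  have k2 : ∀ i l, |pd l (pd i (ker e x)) y| ≤ P := fun i l =>
    (abs_pd_pd_ker_le hn he hne l i).trans (mul_le_mul (by nlinarith) (hpow _ (by linarith) le_rfl)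
      (Real.rpow_nonneg (norm_nonneg _) _) (by positivity))
  have hMy := hM y (mem_closedBall_zero_iff.2 hy.2)
  rw [Real.norm_eq_abs] at hMy
  set S₁ := ∑ i, |pd i (cut n 1) y|
  set S₂ := ∑ i, ∑ j, |pd j (pd i (cut n 1)) y|
  set S₃ := ∑ j, |pd j (lap (cut n 1)) y|
  have n1 : 0 ≤ S₁ := Finset.sum_nonneg fun i _ => abs_nonneg _
  have n2 : 0 ≤ S₂ := Finset.sum_nonneg fun i _ => Finset.sum_nonneg fun j _ => abs_nonneg _
  have n3 : 0 ≤ S₃ := Finset.sum_nonneg fun j _ => abs_nonneg _
  have hsum : S₁ + S₂ + |lap (cut n 1) y| + S₃ ≤ M' :=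
    ((le_abs_self _).trans hMy).trans (le_abs_self M)
  refine ⟨?_, ?_, hzero⟩
  · have a1 : |∑ i, pd i (cut n 1) y * pd i (ker e x) y| ≤ S₁ * P := by
      rw [Finset.sum_mul]
      refine (Finset.abs_sum_le_sum_abs _ _).trans (Finset.sum_le_sum fun i _ => ?_)
      rw [abs_mul]
      exact mul_le_mul_of_nonneg_left (k1 i) (abs_nonneg _)
    have a2 : |lap (cut n 1) y * ker e x y| ≤ |lap (cut n 1) y| * P := by
      rw [abs_mul]; exact mul_le_mul_of_nonneg_left k0 (abs_nonneg _)
    refine (abs_add_le _ _).trans ?_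
    rw [abs_mul 2, abs_two]
    have := mul_le_mul_of_nonneg_right hsum hP0
    have := mul_nonneg n2 hP0
    have := mul_nonneg n3 hP0
    have := mul_nonneg (abs_nonneg (lap (cut n 1) y)) hP0
    linarith [mul_nonneg n1 hP0, mul_nonneg hM0 hP0]
  · have dG : ∀ i, DifferentiableAt ℝ (pd i (ker e x)) y := fun i =>
      differentiableAt_pd (contDiff_ker he x).contDiffAt i
    have dE : ∀ i, DifferentiableAt ℝ (pd i (cut n 1)) y := fun i =>
      (hc i).differentiable (by norm_num) y
    have dG0 : DifferentiableAt ℝ (ker e x) y :=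
      (contDiff_ker (k := 1) he x).differentiable (by norm_num) y
    have dL : DifferentiableAt ℝ (lap (cut n 1)) y := hl.differentiable (by norm_num) y
    have dS : DifferentiableAt ℝ (fun z => ∑ i, pd i (cut n 1) z * pd i (ker e x) z) y :=
      DifferentiableAt.fun_sum fun i _ => (dE i).mul (dG i)
    have ej : pd j (edge e x) y =
        2 * (∑ i, (pd j (pd i (cut n 1)) y * pd i (ker e x) y +
          pd i (cut n 1) y * pd j (pd i (ker e x)) y)) +
        (pd j (lap (cut n 1)) y * ker e x y + lap (cut n 1) y * pd j (ker e x) y) := by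
      show pd j (fun z => 2 * (∑ i, pd i (cut n 1) z * pd i (ker e x) z) +
        lap (cut n 1) z * ker e x z) y = _
      rw [pd_add (dS.const_mul 2) (dL.fun_mul dG0), pd_const_mul dS,
        pd_sum Finset.univ (A := fun i z => pd i (cut n 1) z * pd i (ker e x) z)
          fun i _ => (dE i).mul (dG i), pd_mul dL dG0]
      congr 1
      · congr 1
        exact Finset.sum_congr rfl fun i _ => by rw [pd_mul (dE i) (dG i)]; ring
      · ring
    have a1 : |∑ i, (pd j (pd i (cut n 1)) y * pd i (ker e x) y +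
        pd i (cut n 1) y * pd j (pd i (ker e x)) y)| ≤ (S₂ + S₁) * P := by
      rw [← Finset.sum_add_distrib, Finset.sum_mul]
      refine (Finset.abs_sum_le_sum_abs _ _).trans (Finset.sum_le_sum fun i _ => ?_)
      refine (abs_add_le _ _).trans ?_
      rw [abs_mul, abs_mul, add_mul]
      exact add_le_add (mul_le_mul (Finset.single_le_sum (f := fun l => |pd l (pd i (cut n 1)) y|)
        (fun l _ => abs_nonneg _) (Finset.mem_univ j)) (k1 i) (abs_nonneg _)
          (Finset.sum_nonneg fun l _ => abs_nonneg _))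
        (mul_le_mul_of_nonneg_left (k2 i j) (abs_nonneg _))
    have a2 : |pd j (lap (cut n 1)) y * ker e x y + lap (cut n 1) y * pd j (ker e x) y| ≤
        (S₃ + |lap (cut n 1) y|) * P := by
      refine (abs_add_le _ _).trans ?_
      rw [abs_mul, abs_mul, add_mul]
      exact add_le_add (mul_le_mul (Finset.single_le_sum (f := fun l => |pd l (lap (cut n 1)) y|)
        (fun l _ => abs_nonneg _) (Finset.mem_univ j)) k0 (abs_nonneg _) n3)
        (mul_le_mul_of_nonneg_left (k1 j) (abs_nonneg _))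
    rw [ej]
    refine (abs_add_le _ _).trans ?_
    rw [abs_mul 2, abs_two]
    have := mul_le_mul_of_nonneg_right hsum hP0
    have := mul_nonneg n3 hP0
    have := mul_nonneg (abs_nonneg (lap (cut n 1) y)) hP0
    linarith [mul_nonneg n1 hP0, mul_nonneg n2 hP0, mul_nonneg hM0 hP0]

/-- A universal lower bound near the origin. -/
theorem exists_prim_lower (hn : 3 ≤ n) (A B q g h : ℝ) :
    ∃ C : ℝ, ∀ u v : EuclideanSpace ℝ (Fin n) → ℝ, Data n A B q g h u v →
      ∀ x : EuclideanSpace ℝ (Fin n), ‖x‖ ≤ 1 / 2 → -C ≤ prim g h u v x := by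
  by_cases hq : 1 < q
  swap
  · exact ⟨0, fun u v D => absurd D.hq hq⟩
  obtain ⟨K, hK0, hK⟩ := exists_edge_bound (n := n) hn
  obtain ⟨Cu, hCu, huniv⟩ := exists_universal hn A B one_pos (by linarith : (0 : ℝ) < q)
    (by linarith : 1 < 1 * q)
  set N₁ : ℝ := K * (3 : ℝ) ^ |h - g| with hN₁
  set N₂ : ℝ := |2 * (h - g)| * (|g| * K + n * (3 * K)) with hN₂
  have hN₁0 : 0 ≤ N₁ := mul_nonneg hK0 (Real.rpow_nonneg (by norm_num) _)
  have hN₂0 : 0 ≤ N₂ := by positivity
  refine ⟨(N₁ + N₂) * Cu / kerMass n, fun u v D x hx => ?_⟩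
  have hM := kerMass_pos hn
  set Ψ := prim g h u v with hΨ
  set W : EuclideanSpace ℝ (Fin n) → ℝ := fun y => Ψ y * cut n 1 y with hW
  have hΨc : Continuous Ψ := D.continuous_prim
  have hWc : Continuous W := hΨc.mul contDiff_cut.continuous
  have hWs : HasCompactSupport W := by
    refine HasCompactSupport.of_support_subset_isCompact (isCompact_closedBall 0 (2 * 1)) fun y hy => ?_
    rw [mem_closedBall_zero_iff]
    by_contra hne
    exact hy (by simp [hW, cut_eq_zero one_pos (not_le.1 hne).le])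
  obtain ⟨Db, hDb⟩ := hWs.exists_bound_of_continuous hWc
  have hlim := tendsto_lap_ker x hWc fun y => (Real.norm_eq_abs _).symm.le.trans (hDb y)
  have hWx : W x = Ψ x := by simp [hW, cut_eq_one one_pos (by linarith : ‖x‖ ≤ 1)]
  rw [hWx] at hlim
  suffices key : ∀ t : ℝ, 0 < t → -((N₁ + N₂) * Cu) ≤ ∫ y, W y * -lap (ker (t ^ 2) x) y by
    rw [← neg_div, div_le_iff₀ hM, mul_comm (Ψ x)]
    exact ge_of_tendsto hlim
      ((eventually_mem_nhdsWithin (s := Ioi (0 : ℝ))).mono fun t ht => key t ht)
  intro t ht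
  have he : 0 < t ^ 2 := pow_pos ht 2
  set G := Sector.ker (t ^ 2) x with hG
  set w := edge (t ^ 2) x with hw
  have hbd := hK (t ^ 2) he x hx
  have hw1 : ContDiff ℝ 1 w := contDiff_edge he x
  have hG2 : ContDiff ℝ 2 G := contDiff_ker he x
  have hlapP : ∀ y, lap (fun z => cut n 1 z * G z) y = cut n 1 y * lap G y + w y := fun y => by
    rw [lap_mul contDiff_cut.contDiffAt hG2.contDiffAt, hw, edge]
    ring
  have hcs : HasCompactSupport fun z => cut n 1 z * G z := by
    refine HasCompactSupport.of_support_subset_isCompact (isCompact_closedBall 0 (2 * 1)) fun y hy => ?_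
    rw [mem_closedBall_zero_iff]
    by_contra hne
    exact hy (by simp [cut_eq_zero one_pos (not_le.1 hne).le])
  have hgreen : ∫ y, Ψ y * lap (fun z => cut n 1 z * G z) y ≤ 0 := by
    have := green_nonneg (G := fun y => -Ψ y) hn hΨc.neg D.contDiffOn_prim.neg
      (fun y hy => by
        rw [lap_neg]
        exact neg_nonneg.2 (D.lap_prim hy))
      (contDiff_cut.mul hG2) hcs
      fun y => mul_nonneg cut_nonneg (Real.rpow_nonneg (by positivity) _)
    simp only [neg_mul, integral_neg] at this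
    linarith
  have hwsupp : Function.support w ⊆ closedBall 0 2 \ ball 0 1 := fun y hy => by
    simp only [Set.mem_sdiff, mem_closedBall_zero_iff, mem_ball_zero_iff, not_lt]
    by_contra hne
    rw [not_and_or, not_le, not_le] at hne
    exact hy ((hbd y ⟨0, by omega⟩).2.2 hne.symm).1
  have hKc : IsCompact (closedBall (0 : EuclideanSpace ℝ (Fin n)) 2 \ ball 0 1) :=
    (isCompact_closedBall 0 2).diff isOpen_ball
  have hK0' : closedBall (0 : EuclideanSpace ℝ (Fin n)) 2 \ ball 0 1 ⊆ {0}ᶜ := fun y hy h0 =>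
    hy.2 (by rw [mem_singleton_iff] at h0; simp [h0])
  have hwc : HasCompactSupport w := HasCompactSupport.of_support_subset_isCompact hKc hwsupp
  have iA : Integrable fun y => W y * lap G y :=
    (hWc.mul (continuous_lap hG2)).integrable_of_hasCompactSupport hWs.mul_right
  have iB : Integrable fun y => Ψ y * w y :=
    (hΨc.mul hw1.continuous).integrable_of_hasCompactSupport hwc.mul_left
  have esplit : (fun y => Ψ y * lap (fun z => cut n 1 z * G z) y) =
      fun y => W y * lap G y + Ψ y * w y := funext fun y => by rw [hlapP, hW]; ring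
  rw [esplit, integral_add iA iB] at hgreen
  simp only [mul_neg, integral_neg]
  suffices hlow : -((N₁ + N₂) * Cu) ≤ ∫ y, Ψ y * w y by linarith
  -- move the derivative off `u`
  set φ : Fin n → EuclideanSpace ℝ (Fin n) → ℝ := fun i y => y i * w y with hφ
  have hφ1 : ∀ i, ContDiff ℝ 1 (φ i) := fun i => (EuclideanSpace.proj (𝕜 := ℝ) i).contDiff.mul hw1
  have hφs : ∀ i, tsupport (φ i) ⊆ closedBall 0 2 \ ball 0 1 := fun i =>
    closure_minimal (fun y hy => hwsupp (right_ne_zero_of_mul hy)) hKc.isClosed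
  have hφc : ∀ i, HasCompactSupport (φ i) := fun i => hwc.mul_left
  have hu1 : ContDiffOn ℝ 1 u {0}ᶜ := D.sol.smoothu.of_le (by norm_num)
  have ibp : ∀ i, ∫ y, u y * pd i (φ i) y = -∫ y, pd i u y * φ i y := fun i =>
    integral_pd_mul isOpen_compl_singleton hu1 (hφ1 i) (hφc i) ((hφs i).trans hK0') i
  have hv0 : Continuous fun y => ‖y‖ ^ (h - g) * v y :=
    (continuous_norm.rpow_const fun _ => Or.inr (by linarith [D.diff_eq, D.hA])).mul D.sol.contv
  have hpφ : ∀ i, Continuous (pd i (φ i)) := fun i =>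
    ((hφ1 i).continuous_fderiv (by norm_num)).clm_apply continuous_const
  set F : EuclideanSpace ℝ (Fin n) → ℝ := fun y =>
    (‖y‖ ^ (h - g) * v y + 2 * (h - g) * (g * u y)) * w y -
      2 * (h - g) * (u y * ∑ i, pd i (φ i) y) with hF
  have iF : Integrable F := by
    refine Continuous.integrable_of_hasCompactSupport
      (((hv0.add (continuous_const.mul (continuous_const.mul D.sol.contu))).mul hw1.continuous).sub
        (continuous_const.mul (D.sol.contu.mul (continuous_finsetSum _ fun i _ => hpφ i)))) ?_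
    refine HasCompactSupport.of_support_subset_isCompact hKc fun y hy => ?_
    by_contra hne
    refine hy ?_
    have w0 : w y = 0 := Function.notMem_support.1 fun h' => hne (hwsupp h')
    have p0 : ∀ i, pd i (φ i) y = 0 := fun i => pd_eq_zero_of_notMem i fun h' => hne (hφs i h')
    simp [hF, w0, p0]
  have i1 : ∀ i, Integrable fun y => u y * pd i (φ i) y := fun i =>
    (D.sol.contu.mul (hpφ i)).integrable_of_hasCompactSupport (Sector.hasCompactSupport_pd (hφc i) i).mul_left
  have i2 : ∀ i, Integrable fun y => pd i u y * φ i y := fun i =>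
    integrable_of_support isOpen_compl_singleton hKc hK0'
      ((continuousOn_pd isOpen_compl_singleton hu1 le_rfl i).mul (hφ1 i).continuous.continuousOn)
      fun y hy => by
        rw [image_eq_zero_of_notMem_tsupport fun h' => hy (hφs i h'), mul_zero]
  have i2s : Integrable fun y => ∑ i, pd i u y * φ i y := integrable_finsetSum _ fun i _ => i2 i
  have i1s : Integrable fun y => ∑ i, u y * pd i (φ i) y := integrable_finsetSum _ fun i _ => i1 i
  have eI : ∫ y, Ψ y * w y = ∫ y, F y := by
    have e : (fun y => Ψ y * w y) = fun y => F y + 2 * (h - g) *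
        ((∑ i, pd i u y * φ i y) + ∑ i, u y * pd i (φ i) y) := funext fun y => by
      have e1 : ∑ i, pd i u y * φ i y = eul u y * w y := by
        simp only [hφ, eul, Finset.sum_mul]
        exact Finset.sum_congr rfl fun i _ => by ring
      have e2 : ∑ i, u y * pd i (φ i) y = u y * ∑ i, pd i (φ i) y := (Finset.mul_sum _ _ _).symm
      simp only [hΨ, prim, hF]
      rw [e1, e2]
      ring
    have i3 : Integrable fun y => 2 * (h - g) *
        ((∑ i, pd i u y * φ i y) + ∑ i, u y * pd i (φ i) y) := (i2s.add i1s).const_mul _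
    rw [e, integral_add iF i3, integral_const_mul, integral_add i2s i1s,
      integral_finsetSum _ fun i _ => i2 i, integral_finsetSum _ fun i _ => i1 i,
      ← Finset.sum_add_distrib, Finset.sum_eq_zero fun i _ => by rw [ibp i, add_neg_cancel],
      mul_zero, add_zero]
  rw [eI]
  obtain ⟨bu, bv, -, -⟩ := huniv u v D.sol
  have is : Integrable ((shell n).indicator fun y => -(N₁ * v y + N₂ * u y)) :=
    (((continuous_const.mul D.sol.contv).add (continuous_const.mul D.sol.contu)).neg.continuousOn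
      |>.integrableOn_compact isCompact_shell).integrable_indicator isCompact_shell.measurableSet
  refine le_trans ?_ (integral_mono is iF fun y => ?_)
  · rw [integral_indicator isCompact_shell.measurableSet, integral_neg,
      integral_add ((D.sol.contv.const_mul N₁).continuousOn.integrableOn_compact isCompact_shell)
        ((D.sol.contu.const_mul N₂).continuousOn.integrableOn_compact isCompact_shell),
      integral_const_mul, integral_const_mul, add_mul]
    linarith [mul_le_mul_of_nonneg_left bv hN₁0, mul_le_mul_of_nonneg_left bu hN₂0]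
  by_cases hy : y ∈ closedBall (0 : EuclideanSpace ℝ (Fin n)) 2 \ ball 0 1
  swap
  · have w0 : w y = 0 := Function.notMem_support.1 fun h' => hy (hwsupp h')
    have p0 : ∀ i, pd i (φ i) y = 0 := fun i => pd_eq_zero_of_notMem i fun h' => hy (hφs i h')
    have : F y = 0 := by simp [hF, w0, p0]
    rw [this]
    refine indicator_nonpos (fun z _ => neg_nonpos.2 ?_) y
    exact add_nonneg (mul_nonneg hN₁0 (D.sol.posv z).le) (mul_nonneg hN₂0 (D.sol.posu z).le)
  obtain ⟨hy1, hy2⟩ := hy
  rw [mem_closedBall_zero_iff] at hy1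
  rw [mem_ball_zero_iff, not_lt] at hy2
  have hys : y ∈ shell n := mem_shell.2 ⟨by linarith, by linarith⟩
  rw [indicator_of_mem hys]
  have hdiv : |∑ i, pd i (φ i) y| ≤ n * (3 * K) := by
    refine (Finset.abs_sum_le_sum_abs _ _).trans ((Finset.sum_le_sum fun i _ => ?_).trans_eq
      (by simp : ∑ _i : Fin n, 3 * K = n * (3 * K)))
    have hp : DifferentiableAt ℝ (fun z : EuclideanSpace ℝ (Fin n) => z i) y :=
      (EuclideanSpace.proj (𝕜 := ℝ) i).differentiableAt
    have hc' : pd i (fun z : EuclideanSpace ℝ (Fin n) => z i) y = 1 := by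
      show fderiv ℝ (EuclideanSpace.proj (𝕜 := ℝ) i) y _ = _
      rw [ContinuousLinearMap.fderiv]
      simp
    rw [hφ, pd_mul hp (hw1.differentiable (by norm_num) y), hc', one_mul]
    refine (abs_add_le _ _).trans ?_
    rw [abs_mul]
    have hyi : |y i| ≤ 2 := ((Real.norm_eq_abs _).symm.le.trans (PiLp.norm_apply_le y i)).trans hy1
    linarith [(hbd y i).1, mul_le_mul hyi (hbd y i).2.1 (abs_nonneg _) zero_le_two]
  have hwK := (hbd y ⟨0, by omega⟩).1
  have hu0 := (D.sol.posu y).le
  have hv0' := (D.sol.posv y).le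
  have b1 : |‖y‖ ^ (h - g) * v y * w y| ≤ N₁ * v y := by
    rw [abs_mul, abs_mul, abs_of_nonneg (Real.rpow_nonneg (norm_nonneg _) _), abs_of_nonneg hv0', hN₁]
    have := mul_le_mul (mul_le_mul_of_nonneg_right (Sector.norm_rpow_le_shell hys (h - g)) hv0') hwK
      (abs_nonneg _) (mul_nonneg (Real.rpow_nonneg (by norm_num) _) hv0')
    linarith
  have b2 : |2 * (h - g) * (g * u y) * w y| ≤ |2 * (h - g)| * (|g| * u y * K) := by
    rw [abs_mul, abs_mul, abs_mul g, abs_of_nonneg hu0, mul_assoc]
    exact mul_le_mul_of_nonneg_left (mul_le_mul_of_nonneg_left hwK (by positivity)) (abs_nonneg _)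
  have b3 : |2 * (h - g) * (u y * ∑ i, pd i (φ i) y)| ≤ |2 * (h - g)| * (u y * (n * (3 * K))) := by
    rw [abs_mul, abs_mul (u y), abs_of_nonneg hu0]
    exact mul_le_mul_of_nonneg_left (mul_le_mul_of_nonneg_left hdiv hu0) (abs_nonneg _)
  have c1 := (abs_le.1 b1).1
  have c2 := (abs_le.1 b2).1
  have c3 := (abs_le.1 b3).2
  simp only [hF, hN₂]
  linarith

/-- The second component is nonnegative. -/
theorem prim_nonneg (hn : 3 ≤ n) (D : Data n A B q g h u v) (x : EuclideanSpace ℝ (Fin n)) :
    0 ≤ prim g h u v x := by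
  obtain ⟨C, hC⟩ := exists_prim_lower (n := n) hn A B q g h
  have hD : 0 < 1 * q - 1 := by linarith [D.hq]
  set α : ℝ := (2 + A + (2 + B)) / (q - 1) with hα
  set β : ℝ := α + 2 + A with hβ
  have hq1 : 0 < q - 1 := by linarith
  have hα0 : 0 < α := div_pos (by linarith [D.hA, D.hB]) hq1
  have hb : α * q = β + 2 + B := by rw [hβ, hα]; field_simp; ring
  have hscale : ∀ R : ℝ, 0 < R →
      Data n A B q g h (fun y => R ^ α * u (R • y)) (fun y => R ^ β * v (R • y)) := fun R hR =>
    ⟨D.hn, D.hA, D.hB, D.hq, D.sol.scale hR (by rw [hβ]; ring) hb, D.g_eq, D.h_eq, D.g_pos, D.tau⟩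
  have hps : ∀ (R : ℝ), 0 < R → ∀ z, prim g h (fun y => R ^ α * u (R • y))
      (fun y => R ^ β * v (R • y)) z = R ^ α * prim g h u v (R • z) := fun R hR z => by
    have he : eul (fun y => R ^ α * u (R • y)) z = R ^ α * eul u (R • z) := by
      simp only [eul, Finset.mul_sum]
      refine Finset.sum_congr rfl fun i _ => ?_
      have e : pd i (fun y => R ^ α * u (R • y)) z = R ^ α * pd i (fun y => u (R • y)) z := by
        show fderiv ℝ (R ^ α • fun y => u (R • y)) z _ = _
        rw [fderiv_const_smul_field]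
        rfl
      rw [e, pd_comp_smul u hR.ne']
      simp only [PiLp.smul_apply, smul_eq_mul]
      ring
    have hR2 : R ^ β = R ^ α * R ^ (h - g) := by
      rw [← Real.rpow_add hR, D.diff_eq, hβ]; ring_nf
    simp only [prim, he, norm_smul, Real.norm_eq_abs, abs_of_pos hR,
      Real.mul_rpow hR.le (norm_nonneg z), hR2]
    ring
  refine le_of_tendsto (x := atTop)
    (f := fun R : ℝ => -C * R ^ (-α)) ?_ ?_
  · simpa using (tendsto_rpow_neg_atTop hα0).const_mul (-C)
  filter_upwards [eventually_gt_atTop (2 * ‖x‖), eventually_gt_atTop 0] with R hR1 hR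
  have hz : ‖R⁻¹ • x‖ ≤ 1 / 2 := by
    rw [norm_smul, norm_inv, Real.norm_eq_abs, abs_of_pos hR, inv_mul_le_iff₀ hR]
    linarith
  have h1 := hC _ _ (hscale R hR) _ hz
  rw [hps R hR, smul_smul, mul_inv_cancel₀ hR.ne', one_smul] at h1
  rw [Real.rpow_neg hR.le, ← div_eq_mul_inv, div_le_iff₀ (Real.rpow_pos_of_pos hR _)]
  linarith

theorem Data.adj_nonneg (D : Data n A B q g h u v) (hx : x ≠ 0) : 0 ≤ adj g h u v x := by
  rw [D.adj_eq hx]
  exact mul_nonneg (rw'_pos g hx).le (prim_nonneg D.hn D x)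

end Vale.Agent.P100.Biharm
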