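import Vale.Agent.P100.Doubling.Regular

/-!
P100, one exponent equal to one: a twice continuously differentiable function whose Laplacian is
twice continuously differentiable, too, has twice continuously differentiable first derivatives.
-/

open MeasureTheory Metric Set Filter Topology

namespace Vale.Agent.P100.Biharm

open Vale.Agent.P100.Sys
open Vale.Agent.P100.Doubling

variable {n : ℕ}

theorem contDiff_cut_mul {R : ℝ} (hR : 0 < R) {Ω : Set (EuclideanSpace ℝ (Fin n))} (hΩ : IsOpen Ω)
    (hsub : closedBall 0 (2 * R) ⊆ Ω) {k : WithTop ℕ∞} (hk : k ≤ 2)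
    {f : EuclideanSpace ℝ (Fin n) → ℝ} (hf : ContDiffOn ℝ k f Ω) :
    ContDiff ℝ k (fun y => cut n R y * f y) := by
  refine contDiff_of_tsupport_subset hΩ ((contDiff_cut.of_le hk).contDiffOn.mul hf)
    ((closure_minimal (fun y hy => ?_) isClosed_closedBall).trans hsub)
  rw [mem_closedBall_zero_iff]
  by_contra h
  refine hy ?_
  show cut n R y * f y = 0
  rw [cut_eq_zero hR (not_le.1 h).le, zero_mul]

theorem pd_cut_mul_eventually {R : ℝ} (hR : 0 < R) {f : EuclideanSpace ℝ (Fin n) → ℝ}
    {x : EuclideanSpace ℝ (Fin n)} (hx : ‖x‖ < R) :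
    (fun y => cut n R y * f y) =ᶠ[𝓝 x] f :=
  ((isOpen_lt continuous_norm continuous_const).eventually_mem hx).mono fun y hy => by
    show cut n R y * f y = f y
    rw [cut_eq_one hR (le_of_lt hy), one_mul]

/-- A function whose difference quotients have uniformly Cauchy gradients near the origin is `C¹`
there. -/
theorem contDiffOn_one_of_local (f : ℕ → EuclideanSpace ℝ (Fin n) → ℝ)
    {g : EuclideanSpace ℝ (Fin n) → ℝ} (hf : ∀ m, ContDiff ℝ 1 (f m))
    (hlim : TendstoUniformlyOn f g atTop (closedBall 0 1))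
    (hcau : ∀ j, UniformCauchySeqOn (fun m => pd j (f m)) atTop (closedBall 0 1)) :
    ContDiffOn ℝ 1 g (ball 0 (1 / 4)) := by
  set η : EuclideanSpace ℝ (Fin n) → ℝ := cut n (1 / 4) with hη
  have hη1 : ContDiff ℝ 1 η := contDiff_cut.of_le (by norm_num)
  have hηz : ∀ x : EuclideanSpace ℝ (Fin n), 1 / 2 ≤ ‖x‖ → η x = 0 := fun x hx =>
    cut_eq_zero (by norm_num) (by linarith)
  obtain ⟨M, hM0, hM⟩ : ∃ M : ℝ, 0 ≤ M ∧ ∀ x j, |η x| ≤ M ∧ |pd j η x| ≤ M := by
    obtain ⟨P, hP⟩ : ∃ P, ∀ x, ‖fderiv ℝ η x‖ ≤ P := by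
      have hc : HasCompactSupport η := HasCompactSupport.of_support_subset_isCompact
        (isCompact_closedBall 0 (1 / 2)) fun x hx => by
          rw [mem_closedBall_zero_iff]
          by_contra h
          exact hx (hηz x (not_le.1 h).le)
      exact (hc.fderiv ℝ).exists_bound_of_continuous (hη1.continuous_fderiv (by norm_num))
    refine ⟨max P 1, le_max_of_le_right zero_le_one, fun x j => ⟨?_, ?_⟩⟩
    · rw [abs_of_nonneg cut_nonneg]
      exact cut_le_one.trans (le_max_right _ _)
    · refine le_trans ?_ ((hP x).trans (le_max_left _ _))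
      simpa [pd] using (fderiv ℝ η x).le_opNorm (EuclideanSpace.single j (1 : ℝ))
  have hg := (contDiff_one_of_limit (fun m x => η x * f m x) (g := fun x => η x * g x)
    (fun N => Eventually.of_forall fun m x _ => (hη1.mul (hf m)).differentiable (by norm_num) x)
    (fun N j => Eventually.of_forall fun m => (((hη1.mul (hf m)).continuous_fderiv
      (by norm_num)).clm_apply continuous_const).continuousOn)
    (fun x => ?_) (fun N j => ?_)).1
  · intro x hx
    rw [mem_ball_zero_iff] at hx
    exact ((hg.contDiffAt (x := x)).congr_of_eventuallyEq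
      (pd_cut_mul_eventually (by norm_num) hx).symm).contDiffWithinAt
  · rcases le_or_gt ‖x‖ 1 with hx | hx
    · exact (hlim.tendsto_at (mem_closedBall_zero_iff.2 hx)).const_mul _
    · simp [hηz x (by linarith)]
  rw [Metric.uniformCauchySeqOn_iff]
  intro ε hε
  set δ : ℝ := ε / (2 * (M + 1) + 1) with hδ
  have hδ0 : 0 < δ := div_pos hε (by linarith)
  obtain ⟨m₁, hm₁⟩ := Metric.uniformCauchySeqOn_iff.1 (hcau j) δ hδ0
  obtain ⟨m₂, hm₂⟩ := Metric.uniformCauchySeqOn_iff.1 hlim.uniformCauchySeqOn δ hδ0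
  refine ⟨max m₁ m₂, fun k hk l hl x _ => ?_⟩
  have hd : ∀ m, pd j (fun y => η y * f m y) x = pd j η x * f m x + η x * pd j (f m) x := fun m => by
    rw [pd_mul (hη1.differentiable (by norm_num) x) ((hf m).differentiable (by norm_num) x)]
    ring
  rcases le_or_gt ‖x‖ 1 with hx | hx
  · have a1 := hm₁ k (le_of_max_le_left hk) l (le_of_max_le_left hl) x (mem_closedBall_zero_iff.2 hx)
    have a2 := hm₂ k (le_of_max_le_right hk) l (le_of_max_le_right hl) x (mem_closedBall_zero_iff.2 hx)
    rw [Real.dist_eq] at a1 a2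
    rw [Real.dist_eq, hd, hd, show pd j η x * f k x + η x * pd j (f k) x -
      (pd j η x * f l x + η x * pd j (f l) x) = pd j η x * (f k x - f l x) +
        η x * (pd j (f k) x - pd j (f l) x) by ring]
    refine (abs_add_le _ _).trans_lt ?_
    rw [abs_mul, abs_mul]
    have b1 : |pd j η x| * |f k x - f l x| ≤ M * δ :=
      mul_le_mul (hM x j).2 a2.le (abs_nonneg _) ((abs_nonneg _).trans (hM x j).2)
    have b2 : |η x| * |pd j (f k) x - pd j (f l) x| ≤ M * δ :=
      mul_le_mul (hM x j).1 a1.le (abs_nonneg _) ((abs_nonneg _).trans (hM x j).1)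
    have e : (2 * (M + 1) + 1) * δ = ε := by rw [hδ]; field_simp
    linarith
  · have hz : ∀ m, pd j (fun y => η y * f m y) x = 0 := fun m => by
      have hev : (fun y => η y * f m y) =ᶠ[𝓝 x] fun _ => 0 :=
        ((isOpen_lt continuous_const continuous_norm).eventually_mem
          (show (1 : ℝ) / 2 < ‖x‖ by linarith)).mono fun y hy => by simp [hηz y (le_of_lt hy)]
      rw [pd_congr hev]
      simp [pd]
    rw [hz, hz, dist_self]
    exact hε

/-- The case of a ball about the origin. -/
theorem contDiffOn_pd_of_lap_ball (hn : 3 ≤ n) {W : EuclideanSpace ℝ (Fin n) → ℝ}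
    (hW : ContDiffOn ℝ 2 W (ball 0 50)) (hl : ContDiffOn ℝ 2 (lap W) (ball 0 50)) (i : Fin n) :
    ContDiffOn ℝ 2 (pd i W) (ball 0 (1 / 4)) := by
  have hsub : closedBall (0 : EuclideanSpace ℝ (Fin n)) (2 * 20) ⊆ ball 0 50 :=
    closedBall_subset_ball (by norm_num)
  set F : EuclideanSpace ℝ (Fin n) → ℝ := fun y => cut n 20 y * W y with hF
  set L : EuclideanSpace ℝ (Fin n) → ℝ := fun y => cut n 20 y * lap W y with hL
  have hF2 : ContDiff ℝ 2 F := contDiff_cut_mul (by norm_num) isOpen_ball hsub le_rfl hW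
  have hL2 : ContDiff ℝ 2 L := contDiff_cut_mul (by norm_num) isOpen_ball hsub le_rfl hl
  have hFL : ∀ y : EuclideanSpace ℝ (Fin n), ‖y‖ < 20 → lap F y = L y := fun y hy => by
    rw [lap_congr (pd_cut_mul_eventually (by norm_num) hy), hL]
    simp only
    rw [cut_eq_one (by norm_num) hy.le, one_mul]
  have hU1 : ContDiff ℝ 1 (pd i F) := Cmp.contDiff_pd hF2 i
  have hf1 : ContDiff ℝ 1 (pd i L) := Cmp.contDiff_pd hL2 i
  set h : ℕ → ℝ := fun m => 1 / ((m : ℝ) + 1) with hh
  have hstep : ∀ m, 0 < h m ∧ h m ≤ 1 := fun m =>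
    ⟨by simp only [hh]; positivity,
      (div_le_one (by positivity)).2 (by linarith [(Nat.cast_nonneg m : (0 : ℝ) ≤ m)])⟩
  have hquot : ∀ {k : WithTop ℕ∞} (G : EuclideanSpace ℝ (Fin n) → ℝ), ContDiff ℝ k G → ∀ (l : Fin n)
      (t : ℝ), ContDiff ℝ k (quot l t G) := fun G hG l t =>
    ((hG.comp (contDiff_id.add contDiff_const)).sub hG).div_const t
  set U : ℕ → EuclideanSpace ℝ (Fin n) → ℝ := fun k => quot i (h k) F with hU
  have hU2 : ∀ k, ContDiff ℝ 2 (U k) := fun k => hquot F hF2 i (h k)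
  have convU : TendstoUniformlyOn U (pd i F) atTop (closedBall 0 ((1 + 6 : ℕ) : ℝ)) :=
    tendstoUniformlyOn_quot (hF2.of_le (by norm_num)) i (1 + 6)
  have convG : ∀ j, TendstoUniformlyOn (fun k => pd j (U k)) (pd j (pd i F)) atTop
      (closedBall 0 ((1 + 6 : ℕ) : ℝ)) := fun j => by
    have e : ∀ k, pd j (U k) = quot i (h k) (pd j F) := fun k => funext fun x =>
      pd_quot i j (hF2.differentiable (by norm_num) x) (hF2.differentiable (by norm_num) _)
    simp only [e]
    rw [show pd j (pd i F) = pd i (pd j F) from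
      funext fun x => pd_symm isOpen_univ hF2.contDiffOn (mem_univ x) j i]
    exact tendstoUniformlyOn_quot (Cmp.contDiff_pd hF2 j) i (1 + 6)
  have convL : TendstoUniformlyOn (fun k => lap (U k)) (pd i L) atTop
      (closedBall 0 ((1 + 6 : ℕ) : ℝ)) := by
    refine (tendstoUniformlyOn_quot (hL2.of_le (by norm_num)) i (1 + 6)).congr ?_
    refine Eventually.of_forall fun k y hy => ?_
    rw [mem_closedBall_zero_iff] at hy
    push_cast at hy
    have hs : ‖EuclideanSpace.single i (h k)‖ = h k := by simp [abs_of_pos (hstep k).1]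
    show quot i (h k) L y = lap (quot i (h k) F) y
    rw [lap_quot i (h k) hF2.contDiffAt hF2.contDiffAt, quot, quot, hFL y (by linarith),
      hFL _ (by linarith [norm_add_le y (EuclideanSpace.single i (h k)), (hstep k).2])]
  obtain ⟨C, hC, hlim⟩ := exists_grad_limit_le (n := n) hn
  have hd : Differentiable ℝ (pd i F) := hU1.differentiable (by norm_num)
  have hpc : ∀ j, Continuous (pd j (pd i F)) := fun j =>
    (hU1.continuous_fderiv (by norm_num)).clm_apply continuous_const
  have hkey : ∀ l, ContDiffOn ℝ 1 (pd l (pd i F)) (ball 0 (1 / 4)) := fun l => by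
    refine contDiffOn_one_of_local (fun m => quot l (h m) (pd i F))
      (fun m => hquot _ hU1 l (h m)) ?_ fun j => ?_
    · simpa [hh] using tendstoUniformlyOn_quot hU1 l 1
    rw [Metric.uniformCauchySeqOn_iff]
    intro ε hε
    set δ : ℝ := ε / (5 * C) with hδ
    have hδ0 : 0 < δ := by positivity
    obtain ⟨m₀, hm₀⟩ := eventually_atTop.1
      ((Metric.tendstoUniformlyOn_iff.1 (tendstoUniformlyOn_quot hU1 l (1 + 6)) δ hδ0).and
        (Metric.tendstoUniformlyOn_iff.1 (tendstoUniformlyOn_quot hf1 l (1 + 6)) δ hδ0))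
    refine ⟨m₀, fun m hm r hr x hx => ?_⟩
    obtain ⟨gm, fm⟩ := hm₀ m hm
    obtain ⟨gr, fr⟩ := hm₀ r hr
    obtain ⟨tm0, tm1⟩ := hstep m
    obtain ⟨tr0, tr1⟩ := hstep r
    have hx1 : x ∈ closedBall (0 : EuclideanSpace ℝ (Fin n)) ((1 : ℕ) : ℝ) := by simpa using hx
    set s : ℝ := h m
    set t : ℝ := h r
    have hb := hlim (fun k y => quot l s (U k) y - quot l t (U k) y)
      (fun y => quot l s (pd i F) y - quot l t (pd i F) y)
      (fun y => quot l s (pd i L) y - quot l t (pd i L) y) x (2 * δ) (2 * δ)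
      (pd j (quot l s (pd i F)) x - pd j (quot l t (pd i F)) x) j
      (Eventually.of_forall fun k => ((hquot _ (hU2 k) l s).sub (hquot _ (hU2 k) l t)).contDiffOn)
      ((tendsto_quot_seq l tm0 tm1 hx1 convU).sub (tendsto_quot_seq l tr0 tr1 hx1 convU)) ?_ ?_ ?_ ?_
    · rw [Real.dist_eq]
      refine hb.trans_lt ?_
      have e : C * (2 * δ + 2 * δ) = 4 * ε / 5 := by rw [hδ]; field_simp; ring
      linarith
    · refine ((tendsto_quot_seq l tm0 tm1 hx1 convL).sub (tendsto_quot_seq l tr0 tr1 hx1 convL)).congr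
        (Eventually.of_forall fun k y hy => ?_)
      show quot l s (lap (U k)) y - quot l t (lap (U k)) y = _
      rw [lap_sub_of (hquot _ (hU2 k) l s).contDiffAt (hquot _ (hU2 k) l t).contDiffAt,
        lap_quot l s (hU2 k).contDiffAt (hU2 k).contDiffAt,
        lap_quot l t (hU2 k).contDiffAt (hU2 k).contDiffAt]
    · intro y hy
      have m1 := (norm_add_single_le l tm0 tm1 hx1 hy).1
      have a1 := gm y m1
      have a2 := gr y m1
      rw [Real.dist_eq, abs_lt] at a1 a2
      rw [abs_le]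
      constructor <;> linarith
    · intro y hy
      have m1 := (norm_add_single_le l tm0 tm1 hx1 hy).1
      have a1 := fm y m1
      have a2 := fr y m1
      rw [Real.dist_eq, abs_lt] at a1 a2
      rw [abs_le]
      constructor <;> linarith
    · have hc : ∀ {r : ℝ}, 0 < r → r ≤ 1 → Tendsto (fun k => quot l r (pd j (U k)) x) atTop
          (𝓝 (quot l r (pd j (pd i F)) x)) := fun {r} h0 h1 =>
        (tendsto_quot_seq l h0 h1 hx1 (convG j)).tendsto_at (mem_closedBall_self (by norm_num))
      rw [pd_quot l j (hd x) (hd _), pd_quot l j (hd x) (hd _)]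
      refine ((hc tm0 tm1).sub (hc tr0 tr1)).congr' (Eventually.of_forall fun k => ?_)
      have d : ∀ y, DifferentiableAt ℝ (U k) y := fun y => (hU2 k).differentiable (by norm_num) y
      show quot l s (pd j (U k)) x - quot l t (pd j (U k)) x =
        pd j (fun y => quot l s (U k) y - quot l t (U k) y) x
      rw [pd_sub_of ((hquot _ (hU2 k) l s).differentiable (by norm_num) x)
        ((hquot _ (hU2 k) l t).differentiable (by norm_num) x), pd_quot l j (d x) (d _),
        pd_quot l j (d x) (d _)]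
  have h2 : ContDiffOn ℝ 2 (pd i F) (ball 0 (1 / 4)) := by
    refine (contDiffOn_succ_iff_fderiv_of_isOpen (n := 1) isOpen_ball).2
      ⟨hd.differentiableOn, by simp, ?_⟩
    rw [show fderiv ℝ (pd i F) = fun x => ∑ l, pd l (pd i F) x • EuclideanSpace.proj (𝕜 := ℝ) l from
      funext (fderiv_eq_sum _)]
    exact ContDiffOn.sum fun l _ => (hkey l).smul contDiffOn_const
  refine h2.congr fun y hy => ?_
  rw [mem_ball_zero_iff] at hy
  exact (pd_congr (pd_cut_mul_eventually (by norm_num) (by linarith : ‖y‖ < 20)) i).symm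

/-- First derivatives are `C²` where the function and its Laplacian are. -/
theorem contDiffOn_pd_of_lap (hn : 3 ≤ n) {w : EuclideanSpace ℝ (Fin n) → ℝ}
    {Ω : Set (EuclideanSpace ℝ (Fin n))} (hΩ : IsOpen Ω) (hw : ContDiffOn ℝ 2 w Ω)
    (hl : ContDiffOn ℝ 2 (lap w) Ω) (i : Fin n) : ContDiffOn ℝ 2 (pd i w) Ω := by
  intro z hz
  refine ContDiffAt.contDiffWithinAt ?_
  obtain ⟨r, hr, hball⟩ := Metric.isOpen_iff.1 hΩ z hz
  set s : ℝ := r / 60 with hs
  have hs0 : 0 < s := by positivity
  set W : EuclideanSpace ℝ (Fin n) → ℝ := fun y => 1 * w (z + s • y) with hW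
  have hmap : MapsTo (fun y : EuclideanSpace ℝ (Fin n) => z + s • y) (ball 0 50) Ω := fun y hy => by
    refine hball ?_
    rw [mem_ball_zero_iff] at hy
    rw [mem_ball, dist_eq_norm, add_sub_cancel_left, norm_smul, Real.norm_eq_abs, abs_of_pos hs0]
    calc s * ‖y‖ ≤ s * 50 := mul_le_mul_of_nonneg_left hy.le hs0.le
      _ < r := by rw [hs]; linarith
  have haff : ContDiff ℝ 2 fun y : EuclideanSpace ℝ (Fin n) => z + s • y :=
    contDiff_const.add (contDiff_const_smul s)
  have hlapW : ∀ y, lap W y = 1 * s ^ 2 * lap w (z + s • y) := fun y => by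
    have e : ∀ y : EuclideanSpace ℝ (Fin n), z + y = y - -z := fun y => by
      rw [sub_neg_eq_add, add_comm]
    rw [hW, show (fun y => 1 * w (z + s • y)) = fun y => 1 * (fun x => w (x - -z)) (s • y) from
      funext fun y => by simp only [e], Sector.lap_scale (fun x => w (x - -z)) hs0.ne' 1 y,
      lap_comp_sub, e]
  have h := contDiffOn_pd_of_lap_ball hn (W := W)
    (contDiffOn_const.mul (hw.comp haff.contDiffOn hmap))
    ((contDiffOn_const.mul (hl.comp haff.contDiffOn hmap)).congr fun y _ => hlapW y) i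
  have e : ∀ x, pd i w x = s⁻¹ * pd i W (s⁻¹ • (x - z)) := fun x => by
    have e' : pd i W (s⁻¹ • (x - z)) = s * pd i w x := by
      rw [hW, show (fun y => 1 * w (z + s • y)) = fun y => (fun x => w (x - -z)) (s • y) from
        funext fun y => by simp only [one_mul, sub_neg_eq_add, add_comm],
        Sector.pd_comp_smul (fun x => w (x - -z)) hs0.ne', pd_comp_sub, smul_smul,
        mul_inv_cancel₀ hs0.ne', one_smul, sub_neg_eq_add, sub_add_cancel]
    rw [e', ← mul_assoc, inv_mul_cancel₀ hs0.ne', one_mul]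
  rw [show pd i w = fun x => s⁻¹ * pd i W (s⁻¹ • (x - z)) from funext e]
  have hin : ContDiffAt ℝ 2 (fun x : EuclideanSpace ℝ (Fin n) => s⁻¹ • (x - z)) z :=
    (contDiff_const_smul s⁻¹).contDiffAt.comp z (contDiffAt_id.sub contDiffAt_const)
  exact contDiffAt_const.mul (ContDiffAt.comp (g := pd i W) z
    (h.contDiffAt (isOpen_ball.mem_nhds (by simp))) hin)

end Vale.Agent.P100.Biharm
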